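import Vale.Agent.P197.Integral

/-!
# P197: the fixed vector criterion for Saxl's conjecture

If some subquotient, for left multiplication, of the two-sided ideal of the Young symmetriser of `u`
over the field with two elements has a nonzero vector fixed by the row group of the staircase, then
`u` occurs in the tensor square of the staircase. For an element `z` and a left ideal `Q` this says
that `z` is outside `Q` and fixed by the row group modulo `Q`. The ideal contains the mod two Specht
lattices of the shape of `u` and of its transpose.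
-/

namespace P197

open MonoidAlgebra
open scoped Classical

noncomputable section

/-- The group algebra over the field with two elements. -/
abbrev A2 (N : ℕ) : Type := MonoidAlgebra (ZMod 2) (G N)

variable {N m : ℕ} {ν : YoungDiagram}

/-- The two-sided ideal of the symmetriser modulo two, together with its reversal. -/
def symIdeal (u : Tableau N ν) : AddSubgroup (A2 N) :=
  AddSubgroup.closure {z | ∃ a b : A2 N,
    z = a * young (ZMod 2) u * b ∨ z = a * rev (young (ZMod 2) u) * b}

theorem mul_young_mul_mem (u : Tableau N ν) (a b : A2 N) :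
    a * young (ZMod 2) u * b ∈ symIdeal u :=
  AddSubgroup.subset_closure ⟨a, b, Or.inl rfl⟩

theorem mul_rev_young_mul_mem (u : Tableau N ν) (a b : A2 N) :
    a * rev (young (ZMod 2) u) * b ∈ symIdeal u :=
  AddSubgroup.subset_closure ⟨a, b, Or.inr rfl⟩

theorem exists_lift (x : A2 N) : ∃ y : MonoidAlgebra ℤ (G N),
    mapRingHom (G N) (Int.castRingHom (ZMod 2)) y = x := by
  have hs : Function.Surjective (Int.castRingHom (ZMod 2)).toAddMonoidHom := fun a =>
    ⟨(a.val : ℤ), by simp⟩
  exact map_surjective _ hs x

theorem map_rev (x : MonoidAlgebra ℤ (G N)) :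
    mapRingHom (G N) (Int.castRingHom (ZMod 2)) (rev x)
      = rev (mapRingHom (G N) (Int.castRingHom (ZMod 2)) x) := by
  ext g
  rw [coeff_rev, coeff_mapRingHom, coeff_rev, coeff_mapRingHom]

theorem exists_killed_lift {t : Tableau N (staircase m)} {u : Tableau N ν}
    (h : kronecker t t u = 0) {z : A2 N} (hz : z ∈ symIdeal u) :
    ∃ y, Killed t y ∧ mapRingHom (G N) (Int.castRingHom (ZMod 2)) y = z := by
  induction hz using AddSubgroup.closure_induction with
  | mem z hz =>
    obtain ⟨a, b, rfl | rfl⟩ := hz
    all_goals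
      obtain ⟨a, rfl⟩ := exists_lift a
      obtain ⟨b, rfl⟩ := exists_lift b
    · exact ⟨a * young ℤ u * b, (killed_young t u h).mul a b, by
        rw [map_mul, map_mul, map_young]⟩
    · exact ⟨a * rev (young ℤ u) * b, (killed_young t u h).rev.mul a b, by
        rw [map_mul, map_mul, map_rev, map_young]⟩
  | zero => exact ⟨0, killed_zero t, map_zero _⟩
  | add x y _ _ hx hy =>
    obtain ⟨x', hx', rfl⟩ := hx
    obtain ⟨y', hy', rfl⟩ := hy
    exact ⟨x' + y', hx'.add hy', map_add _ _ _⟩
  | neg x _ hx =>
    obtain ⟨x', hx', rfl⟩ := hx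
    refine ⟨-x', fun X => ?_, map_neg _ _⟩
    rw [map_neg, neg_mul, hx', neg_zero]

/-- The sum over the set of the forced colouring kills the ideal when the coefficient vanishes. -/
theorem phi_mul_eq_zero {t : Tableau N (staircase m)} {u : Tableau N ν}
    (h : kronecker t t u = 0) {z : A2 N} (hz : z ∈ symIdeal u) :
    (∑ x ∈ (stairOf t).both, single x (1 : ZMod 2)) * z = 0 := by
  obtain ⟨y, hy, rfl⟩ := exists_killed_lift h hz
  ext a
  rw [Finset.sum_mul, coeff_sum, Finsupp.finsetSum_apply, coeff_zero, Finsupp.zero_apply]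
  simp only [coeff_single_mul_apply, one_mul, coeff_mapRingHom]
  have hk := Killed.even_sum t (a := y * single a⁻¹ 1) (by
    simpa using hy.mul 1 (single a⁻¹ 1))
  simp only [coeff_mul_single_apply, inv_inv, mul_one] at hk
  refine Eq.trans ?_ hk
  refine Finset.sum_nbij' (·⁻¹) (·⁻¹) (fun x hx => ?_) (fun x hx => ?_)
    (fun _ _ => inv_inv _) (fun _ _ => inv_inv _) fun x _ => rfl
  all_goals
    have hx' := Stair.mem_both.1 hx
    exact Stair.mem_both.2 ⟨hx'.2, by rw [inv_inv]; exact hx'.1⟩

theorem add_self_zero {M : Type} [AddCommGroup M] [Module (A2 N) M] (a : M) : a + a = 0 := by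
  have h : (1 : A2 N) + 1 = 0 := by
    rw [one_def, ← single_add]
    exact single_eq_zero.2 (by decide)
  calc a + a = ((1 : A2 N) + 1) • a := by rw [add_smul, one_smul]
    _ = 0 := by rw [h, zero_smul]

/-- **The fixed vector criterion.** -/
theorem kronecker_pos_of_fixed (t : Tableau N (staircase m)) (u : Tableau N ν)
    (Q : Submodule (A2 N) (A2 N)) (z : A2 N) (hz : z ∈ symIdeal u) (hzQ : z ∉ Q)
    (hfix : ∀ r ∈ rowGroup t, single r (1 : ZMod 2) * z - z ∈ Q) :
    0 < kronecker t t u := by
  refine Nat.pos_of_ne_zero fun h => hzQ ?_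
  let F : G N → A2 N ⧸ Q := fun x => Q.mkQ (single x 1 * z)
  have hF : ∀ x r, (stairOf t).InR r → F (x * r) = F x := fun x r hr => by
    refine (Submodule.Quotient.eq Q).2 ?_
    have h1 : single (x * r) (1 : ZMod 2) * z - single x 1 * z
        = single x (1 : ZMod 2) • (single r (1 : ZMod 2) * z - z) := by
      rw [smul_eq_mul, mul_sub, ← mul_assoc, single_mul_single, one_mul]
    rw [h1]
    exact Q.smul_mem _ (hfix r ((row_mem_iff t r).2 hr))
  have hsum := (stairOf t).sum_both (fun a => add_self_zero (N := N) a) F hF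
  have h0 : ∑ x ∈ (stairOf t).both, F x = 0 := by
    simp only [F, ← map_sum, ← Finset.sum_mul, phi_mul_eq_zero h hz, map_zero]
  rw [h0] at hsum
  have hw : single (stairOf t).w (1 : ZMod 2) * z ∈ Q :=
    (Submodule.Quotient.mk_eq_zero Q).1 hsum.symm
  have hw2 : z = single (stairOf t).w⁻¹ (1 : ZMod 2) •
      (single (stairOf t).w (1 : ZMod 2) * z) := by
    rw [smul_eq_mul, ← mul_assoc, single_mul_single, inv_mul_cancel, one_mul, ← one_def, one_mul]
  rw [hw2]
  exact Q.smul_mem _ hw

/-- The special case of a fixed vector in the ideal itself. -/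
theorem kronecker_pos_of_fixed_vector (t : Tableau N (staircase m)) (u : Tableau N ν)
    (z : A2 N) (hz : z ∈ symIdeal u) (hz0 : z ≠ 0)
    (hfix : ∀ r ∈ rowGroup t, single r (1 : ZMod 2) * z = z) :
    0 < kronecker t t u :=
  kronecker_pos_of_fixed t u ⊥ z hz hz0 fun r hr =>
    (Submodule.mem_bot _).2 (sub_eq_zero.2 (hfix r hr))

/-- The staircase has `m (m + 1) / 2` cells, so tableaux exist. -/
theorem card_staircase (m : ℕ) : (staircase m).card = m * (m + 1) / 2 := by
  show ((Finset.range m ×ˢ Finset.range m).filter fun p => p.1 + p.2 < m).card = _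
  rw [Finset.card_filter, Finset.sum_product]
  have h : ∀ q ∈ Finset.range m,
      (∑ j ∈ Finset.range m, if q + j < m then 1 else 0) = m - q := fun q hq => by
    rw [← Finset.card_filter, show (Finset.range m).filter (fun j => q + j < m)
      = Finset.range (m - q) from Finset.ext fun j => by simp; omega, Finset.card_range]
  rw [Finset.sum_congr rfl h, ← Finset.sum_range_reflect]
  have h2 : ∑ j ∈ Finset.range m, (m - (m - 1 - j)) = ∑ j ∈ Finset.range m, (j + 1) :=
    Finset.sum_congr rfl fun j hj => by have := Finset.mem_range.1 hj; omega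
  have h3 := Finset.sum_range_id (m + 1)
  rw [Finset.sum_range_succ', add_zero, Nat.add_sub_cancel, Nat.mul_comm] at h3
  rw [h2, h3]

theorem nonempty_tableau (lam : YoungDiagram) {N : ℕ} (h : lam.card = N) :
    Nonempty (Tableau N lam) :=
  ⟨(lam.cells.equivFinOfCardEq h).symm⟩

end

end P197
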