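import Vale.Agent.P197.Step
import Vale.Agent.P197.Criterion

/-!
# P197: odd placements and the recursion from `m - 1` to `m`

A placement gives every letter of the staircase a row colour `V` and a column `T`; it fills a set of
cells `D` if `p ↦ (V p, T p)` is a bijection onto `D`. The staircase is odd for `D` if for some
placement an odd number of the forced permutations `x` keep `(V ∘ x, T)` filling `D`.
-/

namespace P197

open MonoidAlgebra
open scoped Classical

noncomputable section

variable {α : Type} {m : ℕ}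

/-- The placement is a bijection onto the cells (injective into them). -/
def Fills (D : Finset (ℕ × ℕ)) (V T : α → ℕ) : Prop :=
  (Function.Injective fun p => (V p, T p)) ∧ ∀ p, (V p, T p) ∈ D

theorem fills_comp_iff {β : Type} (e : β ≃ α) (D : Finset (ℕ × ℕ)) (V T : α → ℕ) :
    Fills D (V ∘ e) (T ∘ e) ↔ Fills D V T := by
  constructor
  · rintro ⟨h1, h2⟩
    refine ⟨fun p q h => e.symm.injective (h1 (by simpa using h)), fun p => ?_⟩
    simpa using h2 (e.symm p)
  · rintro ⟨h1, h2⟩
    exact ⟨fun p q h => e.injective (h1 h), fun p => h2 (e p)⟩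

theorem fills_image_iff {f g : ℕ → ℕ} (hf : Function.Injective f) (hg : Function.Injective g)
    (D : Finset (ℕ × ℕ)) (V T : α → ℕ) :
    Fills (D.image fun p => (f p.1, g p.2)) (f ∘ V) (g ∘ T) ↔ Fills D V T := by
  have hinj : Function.Injective fun p : ℕ × ℕ => (f p.1, g p.2) := fun p q h =>
    Prod.ext (hf (congrArg Prod.fst h)) (hg (congrArg Prod.snd h))
  constructor
  · rintro ⟨h1, h2⟩
    refine ⟨fun p q h => h1 (congrArg (fun c : ℕ × ℕ => (f c.1, g c.2)) h), fun p => ?_⟩
    obtain ⟨c, hc, he⟩ := Finset.mem_image.1 (h2 p)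
    have h : c = (V p, T p) := hinj he
    exact h ▸ hc
  · rintro ⟨h1, h2⟩
    exact ⟨fun p q h => h1 (hinj h), fun p => Finset.mem_image_of_mem _ (h2 p)⟩

theorem fills_swap_iff (D : Finset (ℕ × ℕ)) (V T : α → ℕ) :
    Fills (D.image Prod.swap) T V ↔ Fills D V T := by
  constructor
  · rintro ⟨h1, h2⟩
    refine ⟨fun p q h => h1 (congrArg Prod.swap h), fun p => ?_⟩
    obtain ⟨c, hc, he⟩ := Finset.mem_image.1 (h2 p)
    have h : c = (V p, T p) := Prod.swap_injective he
    exact h ▸ hc
  · rintro ⟨h1, h2⟩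
    exact ⟨fun p q h => h1 (congrArg Prod.swap h), fun p => Finset.mem_image.2 ⟨_, h2 p, rfl⟩⟩

section

variable [Fintype α]

/-- The number modulo two of forced permutations keeping the placement filling. -/
def parity (S : Stair α m) (D : Finset (ℕ × ℕ)) (V T : α → ℕ) : ZMod 2 :=
  ∑ x ∈ S.both, if Fills D (V ∘ x) T then 1 else 0

/-- The staircase is odd for the cells. -/
def Odd' (S : Stair α m) (D : Finset (ℕ × ℕ)) : Prop := ∃ V T : α → ℕ, parity S D V T = 1

theorem Odd'.swap {S : Stair α m} {D : Finset (ℕ × ℕ)} (h : Odd' S D) :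
    Odd' S (D.image Prod.swap) := by
  obtain ⟨V, T, h⟩ := h
  refine ⟨T, V, Eq.trans ?_ h⟩
  have hinv : ∀ x ∈ S.both, x⁻¹ ∈ S.both := fun x hx =>
    Stair.mem_both.2 ⟨(Stair.mem_both.1 hx).2, by rw [inv_inv]; exact (Stair.mem_both.1 hx).1⟩
  refine Finset.sum_nbij' (·⁻¹) (·⁻¹) hinv hinv (fun _ _ => inv_inv _) (fun _ _ => inv_inv _)
    fun x _ => if_congr ?_ rfl rfl
  rw [fills_swap_iff, ← fills_comp_iff x D (V ∘ ⇑x⁻¹) T]
  have e : (V ∘ ⇑x⁻¹) ∘ ⇑x = V := funext fun p => congrArg V (x.symm_apply_apply p)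
  rw [e]

theorem Odd'.relabel {S : Stair α m} {D : Finset (ℕ × ℕ)} (h : Odd' S D) {f g : ℕ → ℕ}
    (hf : Function.Injective f) (hg : Function.Injective g) :
    Odd' S (D.image fun p => (f p.1, g p.2)) := by
  obtain ⟨V, T, h⟩ := h
  refine ⟨f ∘ V, g ∘ T, Eq.trans (Finset.sum_congr rfl fun x _ => if_congr ?_ rfl rfl) h⟩
  exact fills_image_iff hf hg D (V ∘ x) T

/-- **The recursion.** `m + 1` cells of one column may be removed. -/
theorem Odd'.step {S : Stair α (m + 1)} {D : Finset (ℕ × ℕ)} {j : ℕ} {E : Finset (ℕ × ℕ)}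
    (hED : E ⊆ D) (hEj : ∀ c ∈ E, c.2 = j) (hE : E.card = m + 1) (h : Odd' S.low (D \ E)) :
    Odd' S D := by
  obtain ⟨V', T', h⟩ := h
  have hcard : Fintype.card {p : α // S.row p = 0} = E.card := by
    rw [hE]
    refine Eq.trans ?_ (Fintype.card_fin (m + 1))
    refine Fintype.card_congr (Equiv.ofBijective
      (fun p => (⟨S.col p.1, by have := S.lt p.1; omega⟩ : Fin (m + 1))) ⟨fun p q hpq => ?_,
        fun i => ?_⟩)
    · exact Subtype.ext (S.ext _ _ (p.2.trans q.2.symm) (congrArg Fin.val hpq))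
    · obtain ⟨p, hr, hc⟩ := S.exists_cell 0 i.1 (by omega)
      exact ⟨⟨p, hr⟩, Fin.ext hc⟩
  obtain ⟨e⟩ : Nonempty ({p : α // S.row p = 0} ≃ E) :=
    ⟨Fintype.equivOfCardEq (by rw [hcard, Fintype.card_coe])⟩
  let W : α → ℕ := fun p => if hp : S.row p = 0 then (e ⟨p, hp⟩).1.1 else V' ⟨p, hp⟩
  let T : α → ℕ := fun p => if hp : S.row p = 0 then j else T' ⟨p, hp⟩
  refine ⟨W ∘ ⇑S.shift⁻¹, T, Eq.trans (S.sum_both_step (fun a : ZMod 2 => by revert a; decide)
    (fun x => if Fills D ((W ∘ ⇑S.shift⁻¹) ∘ x) T then 1 else 0) fun x r hr hr0 => ?_)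
    (Eq.trans (Finset.sum_congr rfl fun y _ => if_congr ?_ rfl rfl) h)⟩
  · refine if_congr ?_ rfl rfl
    have hT : T ∘ r = T := funext fun p => by
      by_cases hp : S.row p = 0
      · show T (r p) = T p
        simp only [T, dif_pos ((hr p).trans hp), dif_pos hp]
      · exact congrArg T (hr0 p hp)
    rw [← fills_comp_iff r D ((W ∘ ⇑S.shift⁻¹) ∘ x) T, hT]
    rfl
  · have hx : (W ∘ ⇑S.shift⁻¹) ∘ ⇑(S.shift * S.ext' y) = W ∘ ⇑(S.ext' y) :=
      funext fun p => congrArg W (S.shift.symm_apply_apply (S.ext' y p))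
    rw [hx]
    have hlow : ∀ p : S.Low, (W (S.ext' y p.1), T p.1) = (V' (y p), T' p) := fun p => by
      rw [S.ext'_low y p]
      simp only [W, T, dif_neg (y p).2, dif_neg p.2]
    have htop : ∀ p (hp : S.row p = 0), (W (S.ext' y p), T p) = (e ⟨p, hp⟩).1 := fun p hp => by
      rw [S.ext'_top y hp]
      simp only [W, T, dif_pos hp]
      exact Prod.ext rfl (hEj _ (e ⟨p, hp⟩).2).symm
    constructor
    · rintro ⟨h1, h2⟩
      refine ⟨fun p q hpq => Subtype.ext (h1 ((hlow p).trans (hpq.trans (hlow q).symm))),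
        fun p => Finset.mem_sdiff.2 ⟨hlow p ▸ h2 p.1, fun hmem => ?_⟩⟩
      obtain ⟨z, hz⟩ := e.surjective ⟨_, hmem⟩
      have := h1 ((htop z.1 z.2).trans ((congrArg Subtype.val hz).trans (hlow p).symm))
      exact p.2 (this ▸ z.2)
    · rintro ⟨h1, h2⟩
      have hdis : ∀ (p : α) (hp : S.row p = 0) (q : S.Low),
          (e ⟨p, hp⟩).1 ≠ (V' (y q), T' q) := fun p hp q he =>
        (Finset.mem_sdiff.1 (h2 q)).2 (he ▸ (e ⟨p, hp⟩).2)
      refine ⟨fun p q hpq => ?_, fun p => ?_⟩
      · change (W (S.ext' y p), T p) = (W (S.ext' y q), T q) at hpq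
        by_cases hp : S.row p = 0 <;> by_cases hq : S.row q = 0
        · rw [htop p hp, htop q hq] at hpq
          exact congrArg Subtype.val (e.injective (Subtype.ext hpq))
        · rw [htop p hp, hlow ⟨q, hq⟩] at hpq
          exact absurd hpq (hdis p hp ⟨q, hq⟩)
        · rw [hlow ⟨p, hp⟩, htop q hq] at hpq
          exact absurd hpq.symm (hdis q hq ⟨p, hp⟩)
        · rw [hlow ⟨p, hp⟩, hlow ⟨q, hq⟩] at hpq
          exact congrArg Subtype.val (h1 (a₁ := ⟨p, hp⟩) (a₂ := ⟨q, hq⟩) hpq)
      · show (W (S.ext' y p), T p) ∈ D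
        by_cases hp : S.row p = 0
        · rw [htop p hp]; exact hED (e ⟨p, hp⟩).2
        · rw [hlow ⟨p, hp⟩]; exact (Finset.mem_sdiff.1 (h2 ⟨p, hp⟩)).1

/-- The empty staircase is odd for no cells. -/
theorem odd'_zero (S : Stair α 0) : Odd' S ∅ := by
  have : IsEmpty α := ⟨fun p => absurd (S.lt p) (by omega)⟩
  refine ⟨fun _ => 0, fun _ => 0, ?_⟩
  have hF : ∀ x : Equiv.Perm α, Fills (∅ : Finset (ℕ × ℕ)) ((fun _ => 0) ∘ x) fun _ => 0 :=
    fun x => ⟨fun p => isEmptyElim p, fun p => isEmptyElim p⟩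
  unfold parity
  rw [S.sum_both (fun a : ZMod 2 => by revert a; decide) _ fun x r _ => by
    rw [if_pos (hF _), if_pos (hF _)]]
  exact if_pos (hF _)

end

/-- Cells reduced to nothing by removing `m`, then `m - 1`, ..., then one cell, each time from a
single column or a single row. -/
inductive Peel : ℕ → Finset (ℕ × ℕ) → Prop
  | nil : Peel 0 ∅
  | column {m : ℕ} {D E : Finset (ℕ × ℕ)} {j : ℕ} (hED : E ⊆ D) (hEj : ∀ c ∈ E, c.2 = j)
      (hE : E.card = m + 1) (h : Peel m (D \ E)) : Peel (m + 1) D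
  | line {m : ℕ} {D E : Finset (ℕ × ℕ)} {i : ℕ} (hED : E ⊆ D) (hEi : ∀ c ∈ E, c.1 = i)
      (hE : E.card = m + 1) (h : Peel m (D \ E)) : Peel (m + 1) D

theorem odd'_of_peel {m : ℕ} {D : Finset (ℕ × ℕ)} (h : Peel m D) :
    ∀ {α : Type} [Fintype α] (S : Stair α m), Odd' S D := by
  induction h with
  | nil => exact fun S => odd'_zero S
  | column hED hEj hE _ ih => exact fun S => Odd'.step hED hEj hE (ih S.low)
  | @line m D E i hED hEi hE h ih =>
    intro α _ S
    have h' : Odd' S (D.image Prod.swap) := by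
      refine Odd'.step (j := i) (E := E.image Prod.swap) (Finset.image_subset_image hED)
        (fun c hc => ?_) (by rw [Finset.card_image_of_injective _ Prod.swap_injective, hE]) ?_
      · obtain ⟨d, hd, rfl⟩ := Finset.mem_image.1 hc
        exact hEi d hd
      · rw [← Finset.image_sdiff _ _ Prod.swap_injective]
        exact (ih S.low).swap
    have := h'.swap
    rwa [Finset.image_image, Prod.swap_swap_eq, Finset.image_id] at this

variable {N : ℕ} {ν : YoungDiagram}

/-- An element is in the row group times the column group iff the moved rows fill the diagram. -/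
theorem exists_rc_iff_fills (u : Tableau N ν) (g : G N) :
    (∃ r ∈ rowGroup u, ∃ c ∈ colGroup u, g = r * c) ↔ Fills ν.cells (rowOf u ∘ g) (colOf u) := by
  constructor
  · rintro ⟨r, hr, c, hc, rfl⟩
    rw [mem_rowGroup] at hr
    rw [mem_colGroup] at hc
    have e : ∀ p, ((rowOf u ∘ ⇑(r * c)) p, colOf u p) = (u (c p)).1 := fun p =>
      Prod.ext (hr (c p)) (hc p).symm
    refine ⟨fun p q h => c.injective (u.injective (Subtype.ext ?_)), fun p => ?_⟩
    · rw [← e, ← e]; exact h
    · rw [e]; exact (u (c p)).2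
  · rintro ⟨h1, h2⟩
    let f : Fin N → Fin N := fun p => u.symm ⟨_, h2 p⟩
    have hf : Function.Injective f := fun p q h =>
      h1 (congrArg Subtype.val (u.symm.injective h))
    let c : G N := Equiv.ofBijective f ⟨hf, Finite.injective_iff_surjective.1 hf⟩
    have hc : ∀ p, (u (c p)).1 = (rowOf u (g p), colOf u p) := fun p =>
      congrArg Subtype.val (u.apply_symm_apply ⟨_, h2 p⟩)
    refine ⟨g * c⁻¹, (mem_rowGroup u _).2 fun p => ?_, c,
      (mem_colGroup u _).2 fun p => (congrArg Prod.snd (hc p) :), by group⟩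
    obtain ⟨q, rfl⟩ := c.surjective p
    show rowOf u (g (c.symm (c q))) = rowOf u (c q)
    rw [c.symm_apply_apply]
    exact (congrArg Prod.fst (hc q)).symm

theorem coeff_young_two (u : Tableau N ν) (g : G N) :
    (young (ZMod 2) u).coeff g = if Fills ν.cells (rowOf u ∘ g) (colOf u) then 1 else 0 := by
  have hcast : ∀ c : G N, (((Equiv.Perm.sign c : ℤˣ) : ℤ) : ZMod 2) = 1 := fun c => by
    rcases Int.units_eq_one_or (Equiv.Perm.sign c) with h | h <;> rw [h] <;> decide
  simp only [young, coeff_sum, coeff_single, Finsupp.finsetSum_apply, hcast]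
  rw [← Finset.sum_product']
  split_ifs with h
  · obtain ⟨r, hr, c, hc, rfl⟩ := (exists_rc_iff_fills u g).2 h
    rw [Finset.sum_eq_single (r, c)]
    · simp
    · rintro ⟨r', c'⟩ hmem hne
      obtain ⟨hr', hc'⟩ := Finset.mem_product.1 hmem
      rw [Finsupp.single_apply, if_neg fun he => hne ?_]
      have hcc : c' = c := Equiv.ext fun p => u.injective (Subtype.ext (Prod.ext
        (((mem_rowGroup u r').1 hr' (c' p)).symm.trans
          ((congrArg (rowOf u) (DFunLike.congr_fun he p)).trans ((mem_rowGroup u r).1 hr (c p))))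
        (((mem_colGroup u c').1 hc' p).trans ((mem_colGroup u c).1 hc p).symm)))
      subst hcc
      exact Prod.ext (mul_right_cancel he) rfl
    · exact fun hn => absurd (Finset.mem_product.2 ⟨hr, hc⟩) hn
  · refine Finset.sum_eq_zero fun p hp => ?_
    obtain ⟨hr', hc'⟩ := Finset.mem_product.1 hp
    rw [Finsupp.single_apply, if_neg fun he => h ((exists_rc_iff_fills u g).1
      ⟨p.1, hr', p.2, hc', he.symm⟩)]

/-- An odd placement gives a positive Kronecker coefficient. -/
theorem kronecker_pos_of_odd (t : Tableau N (staircase m)) (u : Tableau N ν)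
    (h : Odd' (stairOf t) ν.cells) : 0 < kronecker t t u := by
  obtain ⟨V, T, h⟩ := h
  refine Nat.pos_of_ne_zero fun hk => ?_
  obtain ⟨x₀, -, hx₀⟩ := Finset.exists_ne_zero_of_sum_ne_zero
    (show parity (stairOf t) ν.cells V T ≠ 0 by rw [h]; exact one_ne_zero)
  have hF : Fills ν.cells (V ∘ x₀) T := by
    by_contra hn
    exact hx₀ (if_neg hn)
  let f : Fin N → Fin N := fun p => u.symm ⟨_, hF.2 p⟩
  have hf : Function.Injective f := fun p q he =>
    hF.1 (congrArg Subtype.val (u.symm.injective he))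
  let e : G N := Equiv.ofBijective f ⟨hf, Finite.injective_iff_surjective.1 hf⟩
  have he : ∀ p, (u (e p)).1 = (V (x₀ p), T p) := fun p =>
    congrArg Subtype.val (u.apply_symm_apply ⟨_, hF.2 p⟩)
  -- read the coefficient off the element killed by the forced sum
  let a : G N := e
  let b : G N := x₀ * e⁻¹
  have hzero := congrArg (fun z : A2 N => z.coeff 1) (phi_mul_eq_zero hk
    (mul_rev_young_mul_mem u (single a⁻¹ (1 : ZMod 2) : A2 N) (single b⁻¹ (1 : ZMod 2))) (t := t))
  rw [Finset.sum_mul, coeff_sum, Finsupp.finsetSum_apply, coeff_zero, Finsupp.zero_apply] at hzero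
  have hone : ∑ x ∈ (stairOf t).both, (single x (1 : ZMod 2) * (single a⁻¹ (1 : ZMod 2) *
      rev (young (ZMod 2) u) * single b⁻¹ (1 : ZMod 2))).coeff 1 = 1 := by
    refine Eq.trans ?_ h
    have hinv : ∀ x ∈ (stairOf t).both, x⁻¹ ∈ (stairOf t).both := fun x hx =>
      Stair.mem_both.2 ⟨(Stair.mem_both.1 hx).2, by rw [inv_inv]; exact (Stair.mem_both.1 hx).1⟩
    refine Finset.sum_congr rfl fun x _ => ?_
    simp only [coeff_single_mul_apply, coeff_mul_single_apply, one_mul, mul_one, inv_inv, coeff_rev,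
      coeff_young_two, mul_inv_rev]
    refine if_congr ?_ rfl rfl
    rw [← fills_comp_iff e _ _ (colOf u)]
    refine Iff.of_eq (congr_arg₂ (Fills ν.cells) (funext fun p => ?_) (funext fun p => ?_))
    · have := congrArg Prod.fst (he (x₀⁻¹ (x p)))
      simp [a, b, rowOf] at this ⊢
      exact this
    · exact congrArg Prod.snd (he p)
  rw [hone] at hzero
  exact one_ne_zero hzero

/-- Every peelable shape occurs in the tensor square of the staircase. -/
theorem kronecker_pos_of_peel (t : Tableau N (staircase m)) (u : Tableau N ν)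
    (h : Peel m ν.cells) : 0 < kronecker t t u :=
  kronecker_pos_of_odd t u (odd'_of_peel h (stairOf t))

end

end P197
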