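import Mathlib

/-!
# P197: Specht modules, Kronecker coefficients, Saxl's question

A tableau of shape `lam` with `N` cells is a bijection from `Fin N` to the cells. The Specht module is
the left ideal of the complex group algebra generated by its Young symmetriser.
-/

namespace P197

open TensorProduct
open scoped Classical

noncomputable section

/-- The symmetric group on `N` letters. -/
abbrev G (N : ℕ) : Type := Equiv.Perm (Fin N)

/-- A filling of the cells of a Young diagram by the letters. -/
abbrev Tableau (N : ℕ) (lam : YoungDiagram) : Type := Fin N ≃ lam.cells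

variable {N : ℕ} {lam μ ν : YoungDiagram}

/-- The row of a letter. -/
def rowOf (t : Tableau N lam) (i : Fin N) : ℕ := (t i).1.1

/-- The column of a letter. -/
def colOf (t : Tableau N lam) (i : Fin N) : ℕ := (t i).1.2

/-- The row group. -/
def rowGroup (t : Tableau N lam) : Finset (G N) :=
  Finset.univ.filter fun x => ∀ i, rowOf t (x i) = rowOf t i

/-- The column group. -/
def colGroup (t : Tableau N lam) : Finset (G N) :=
  Finset.univ.filter fun x => ∀ i, colOf t (x i) = colOf t i

/-- The Young symmetriser: the sum of `sign c • (r c)`. -/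
def young (k : Type) [CommRing k] (t : Tableau N lam) : MonoidAlgebra k (G N) :=
  ∑ r ∈ rowGroup t, ∑ c ∈ colGroup t,
    MonoidAlgebra.single (r * c) ((Equiv.Perm.sign c : ℤ) : k)

/-- The Specht module: the left ideal of the Young symmetriser. -/
def specht (t : Tableau N lam) : Submodule ℂ (MonoidAlgebra ℂ (G N)) :=
  LinearMap.range (LinearMap.mulRight ℂ (young ℂ t))

theorem specht_stable (t : Tableau N lam) (a : MonoidAlgebra ℂ (G N))
    (x : MonoidAlgebra ℂ (G N)) (hx : x ∈ specht t) : a * x ∈ specht t := by
  obtain ⟨y, rfl⟩ := hx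
  exact ⟨a * y, mul_assoc a y (young ℂ t)⟩

section

variable {Γ : Type} [Group Γ]

/-- A left ideal of a complex group algebra as a representation: left multiplication. -/
def leftRep (p : Submodule ℂ (MonoidAlgebra ℂ Γ)) (hp : ∀ a, ∀ x ∈ p, a * x ∈ p) :
    Representation ℂ Γ p where
  toFun g := (LinearMap.mulLeft ℂ (MonoidAlgebra.of ℂ Γ g)).restrict fun x hx => hp _ x hx
  map_one' := LinearMap.ext fun x => Subtype.ext (by
    show MonoidAlgebra.of ℂ Γ 1 * x.1 = x.1
    rw [map_one, one_mul])
  map_mul' g h := LinearMap.ext fun x => Subtype.ext (by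
    show MonoidAlgebra.of ℂ Γ (g * h) * x.1 = _ * (_ * x.1)
    rw [map_mul, mul_assoc])

variable {V W : Type} [AddCommMonoid V] [Module ℂ V] [AddCommMonoid W] [Module ℂ W]

/-- The linear maps commuting with the group. -/
def equivariantMaps (ρ : Representation ℂ Γ V) (σ : Representation ℂ Γ W) :
    Submodule ℂ (V →ₗ[ℂ] W) where
  carrier := {F | ∀ g v, F (ρ g v) = σ g (F v)}
  zero_mem' g v := (map_zero _).symm
  add_mem' {F F'} hF hF' g v := by
    rw [LinearMap.add_apply, LinearMap.add_apply, map_add, hF g v, hF' g v]
  smul_mem' c F hF g v := by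
    rw [LinearMap.smul_apply, LinearMap.smul_apply, map_smul, hF g v]

variable {U : Type} [AddCommMonoid U] [Module ℂ U]

/-- The dimension of the maps from `U` to `V ⊗ W`, with the diagonal action, commuting with the
group. -/
def tensorHomDim (ρ : Representation ℂ Γ V) (σ : Representation ℂ Γ W) (τ : Representation ℂ Γ U) :
    ℕ :=
  Module.finrank ℂ (equivariantMaps τ (ρ.tprod σ))

end

/-- The action of the symmetric group on the Specht module: left multiplication. -/
def spechtRep (t : Tableau N lam) : Representation ℂ (G N) (specht t) :=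
  leftRep (specht t) (specht_stable t)

/-- The Kronecker coefficient. -/
def kronecker (t : Tableau N lam) (s : Tableau N μ) (u : Tableau N ν) : ℕ :=
  tensorHomDim (spechtRep t) (spechtRep s) (spechtRep u)

/-- The staircase with rows `m, m - 1, ..., 1`. -/
def staircase (m : ℕ) : YoungDiagram where
  cells := (Finset.range m ×ˢ Finset.range m).filter fun p => p.1 + p.2 < m
  isLowerSet := by
    rintro ⟨a, b⟩ ⟨c, d⟩ ⟨hca, hdb⟩ h
    simp only [Finset.coe_filter, Finset.mem_product, Finset.mem_range, Set.mem_ofPred_eq] at h ⊢
    change c ≤ a at hca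
    change d ≤ b at hdb
    omega

/-- Saxl's conjecture: the tensor square of the staircase contains every irreducible. -/
def Statement : Prop :=
  ∀ m, 1 ≤ m → ∀ ν : YoungDiagram, ν.card = m * (m + 1) / 2 →
    ∀ (t : Tableau (m * (m + 1) / 2) (staircase m)) (u : Tableau (m * (m + 1) / 2) ν),
      0 < kronecker t t u

end

end P197
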