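import Vale.Agent.P197.Triple

/-!
# P197: removing two rows of the staircase against three columns

If three columns of `D` have lengths `L, v, v` with `L + 2 v = 2 m + 3 + r` and `r ≤ L`, then the
staircase of `m + 2` rows is odd for `D` as soon as the one of `m` rows is odd for `D` with the three
columns replaced by one of length `r`.
-/

namespace P197

open scoped Classical

noncomputable section

/-- The letters of one row of a staircase. -/
theorem Stair.card_row {α : Type} [Fintype α] {M : ℕ} (S : Stair α M) (q : ℕ) :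
    (Finset.univ.filter fun p => S.row p = q).card = M - q := by
  rw [← Finset.card_range (M - q)]
  refine Finset.card_nbij S.col (fun p hp => ?_) (fun p hp p' hp' h => ?_) fun j hj => ?_
  · have := S.lt p
    have := (Finset.mem_filter.1 hp).2
    exact Finset.mem_range.2 (by omega)
  · exact S.ext _ _ ((Finset.mem_filter.1 (Finset.mem_coe.1 hp)).2.trans
      (Finset.mem_filter.1 (Finset.mem_coe.1 hp')).2.symm) h
  · have hj' := Finset.mem_range.1 (Finset.mem_coe.1 hj)
    obtain ⟨p, hr, hc⟩ := S.exists_cell q j (by omega)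
    exact ⟨p, Finset.mem_coe.2 (Finset.mem_filter.2 ⟨Finset.mem_univ _, hr⟩), hc⟩

variable {α : Type} [Fintype α] {m : ℕ}

/-- **The recursion from `m` to `m + 2`.** -/
theorem Odd'.stepTriple {S : Stair α (m + 2)} {D : Finset (ℕ × ℕ)} {L v r a b c : ℕ}
    (hab : a ≠ b) (hac : a ≠ c) (hbc : b ≠ c) (hv : v ≤ L) (hr : r ≤ L)
    (hsum : L + 2 * v = 2 * m + 3 + r) (hcard : D.card = Fintype.card α)
    (hD : ∀ i j, (j = a ∨ j = b ∨ j = c) → ((i, j) ∈ D ↔ i < if j = a then L else v))
    (h : Odd' S.low.low
      ((D.filter fun p => p.2 ≠ a ∧ p.2 ≠ b ∧ p.2 ≠ c) ∪ Finset.range r ×ˢ {a})) :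
    Odd' S D := by
  obtain ⟨V', T', h⟩ := h
  set Dout := D.filter fun p => p.2 ≠ a ∧ p.2 ≠ b ∧ p.2 ≠ c with hDout
  set D' := Dout ∪ Finset.range r ×ˢ {a} with hD'def
  let Top : α → Prop := fun p => S.row p = 0 ∨ S.row p = 1
  let up : S.low.Low → α := fun q => q.1.1
  have hup : Function.Injective up := fun q q' h => Subtype.ext (Subtype.ext h)
  have hnotTop : ∀ q, ¬ Top (up q) := fun q h => by
    rcases h with h | h
    · exact q.1.2 h
    · exact q.2 (show S.row q.1.1 - 1 = 0 by simp only [up] at h; omega)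
  have hdown : ∀ p, ¬ Top p → ∃ q, up q = p := fun p h => by
    have h1 : ¬ S.row p = 0 := fun e => h (Or.inl e)
    exact ⟨⟨⟨p, h1⟩, fun e => h (Or.inr (by
      change S.row p - 1 = 0 at e; omega))⟩, rfl⟩
  -- counting
  have hpD : piece L v a b c = D \ Dout := Finset.ext fun ⟨i, j⟩ => by
    rw [mem_piece, Finset.mem_sdiff, hDout, Finset.mem_filter]
    by_cases hj : j = a ∨ j = b ∨ j = c
    · rw [hD i j hj]
      rcases hj with rfl | rfl | rfl <;> simp [hab, hac, hbc, hab.symm, hac.symm, hbc.symm]
    · simp only [not_or] at hj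
      simp [hj.1, hj.2.1, hj.2.2]
  have hpc : (piece L v a b c).card = L + 2 * v := by
    rw [piece, Finset.card_union_of_disjoint, Finset.card_union_of_disjoint,
      Finset.card_product, Finset.card_product, Finset.card_product] <;>
      simp [Finset.disjoint_left, hab.symm, hac.symm, hbc.symm] <;> omega
  have hDc : D.card = Dout.card + (L + 2 * v) := by
    rw [← hpc, hpD, Finset.card_sdiff_of_subset (Finset.filter_subset _ _)]
    have := Finset.card_le_card (Finset.filter_subset (fun p : ℕ × ℕ => p.2 ≠ a ∧ p.2 ≠ b ∧ p.2 ≠ c) D)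
    rw [← hDout] at this ⊢
    omega
  have hdis : Disjoint Dout (Finset.range r ×ˢ {a}) := Finset.disjoint_left.2 fun x hx hx' =>
    (Finset.mem_filter.1 hx).2.1 (Finset.mem_singleton.1 (Finset.mem_product.1 hx').2)
  have hD'c : D'.card = Dout.card + r := by
    rw [hD'def, Finset.card_union_of_disjoint hdis]
    simp
  have hTop : Fintype.card {p // Top p} = 2 * m + 3 := by
    rw [Fintype.card_subtype, show (Finset.univ.filter Top)
      = (Finset.univ.filter fun p => S.row p = 0) ∪ (Finset.univ.filter fun p => S.row p = 1) from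
      Finset.filter_or _ _ _, Finset.card_union_of_disjoint, S.card_row, S.card_row]
    · omega
    · exact Finset.disjoint_left.2 fun p h1 h2 => by
        have := (Finset.mem_filter.1 h1).2
        have := (Finset.mem_filter.1 h2).2
        omega
  have hcardα : Fintype.card α = 2 * m + 3 + Fintype.card S.low.Low := by
    rw [← hTop, ← Fintype.card_sum]
    refine (Fintype.card_congr (Equiv.ofBijective (Sum.elim (fun p => p.1) up) ⟨?_, fun p => ?_⟩)).symm
    · rintro (p | p) (q | q) h
      · exact congrArg _ (Subtype.ext h)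
      · change p.1 = up q at h
        exact absurd (h ▸ p.2) (hnotTop q)
      · change up p = q.1 at h
        exact absurd (h ▸ q.2) (hnotTop p)
      · exact congrArg _ (hup h)
    · by_cases hp : Top p
      · exact ⟨Sum.inl ⟨p, hp⟩, rfl⟩
      · obtain ⟨q, hq⟩ := hdown p hp
        exact ⟨Sum.inr q, hq⟩
  -- one filling below
  obtain ⟨y₀, -, hy₀⟩ := Finset.exists_ne_zero_of_sum_ne_zero
    (show parity S.low.low D' V' T' ≠ 0 by rw [h]; exact one_ne_zero)
  have hy : Fills D' (V' ∘ y₀) T' := by by_contra hn; exact hy₀ (if_neg hn)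
  have hψ : Function.Bijective fun q => (⟨_, hy.2 q⟩ : D') :=
    (Fintype.bijective_iff_injective_and_card _).2
      ⟨fun q q' e => hy.1 (congrArg Subtype.val e), by rw [Fintype.card_coe]; omega⟩
  have hT' : ∀ q, T' q ≠ b ∧ T' q ≠ c := fun q => by
    rcases Finset.mem_union.1 (hy.2 q) with h | h
    · exact ⟨(Finset.mem_filter.1 h).2.2.1, (Finset.mem_filter.1 h).2.2.2⟩
    · have e : T' q = a := Finset.mem_singleton.1 (Finset.mem_product.1 h).2
      rw [e]
      exact ⟨hab, hac⟩
  have hB : Fintype.card {q // T' q = a} = r := by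
    refine (Fintype.card_congr ((Equiv.ofBijective _ hψ).subtypeEquiv (p := fun q => T' q = a)
      (q := fun z => z.1.2 = a) fun q => Iff.rfl)).trans ?_
    refine Eq.trans (Fintype.card_congr ({
      toFun := fun z => ⟨z.1.1, Finset.mem_filter.2 ⟨z.1.2, z.2⟩⟩
      invFun := fun z => ⟨⟨z.1, (Finset.mem_filter.1 z.2).1⟩, (Finset.mem_filter.1 z.2).2⟩
      left_inv := fun z => rfl
      right_inv := fun z => rfl } : {z : ↥D' // z.1.2 = a} ≃ ↥(D'.filter fun z => z.2 = a))) ?_
    rw [Fintype.card_coe, show D'.filter (fun z => z.2 = a) = Finset.range r ×ˢ {a} from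
      Finset.ext fun z => ?_]
    · simp
    · constructor
      · intro hz
        obtain ⟨hz, ha⟩ := Finset.mem_filter.1 hz
        rcases Finset.mem_union.1 hz with h | h
        · exact absurd ha (Finset.mem_filter.1 h).2.1
        · exact h
      · intro hz
        exact Finset.mem_filter.2 ⟨Finset.mem_union_right _ hz,
          Finset.mem_singleton.1 (Finset.mem_product.1 hz).2⟩
  -- the letters coloured by the three columns
  let inβ : α → Prop := fun p => Top p ∨ ∃ q, up q = p ∧ T' q = a
  let join : {p // Top p} ⊕ {q // T' q = a} → {p // inβ p} :=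
    Sum.elim (fun p => ⟨p.1, Or.inl p.2⟩) fun q => ⟨up q.1, Or.inr ⟨q.1, rfl, q.2⟩⟩
  have hjoin : Function.Bijective join := by
    constructor
    · rintro (p | p) (q | q) h <;> have h' := congrArg Subtype.val h
      · exact congrArg _ (Subtype.ext h')
      · change p.1 = up q.1 at h'
        exact absurd (h' ▸ p.2) (hnotTop q.1)
      · change up p.1 = q.1 at h'
        exact absurd (h' ▸ q.2) (hnotTop p.1)
      · exact congrArg _ (Subtype.ext (hup h'))
    · rintro ⟨p, hp | ⟨q, rfl, hq⟩⟩
      · exact ⟨Sum.inl ⟨p, hp⟩, rfl⟩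
      · exact ⟨Sum.inr ⟨q, hq⟩, rfl⟩
  have hβc : Fintype.card {p // inβ p} = L + 2 * v := by
    rw [← Fintype.card_congr (Equiv.ofBijective _ hjoin), Fintype.card_sum, hTop, hB]
    omega
  have hra : Finset.range r ×ˢ ({a} : Finset ℕ) ⊆ piece L v a b c := fun ⟨i, j⟩ hz => by
    obtain ⟨h1, h2⟩ := Finset.mem_product.1 hz
    exact mem_piece.2 (Or.inl ⟨lt_of_lt_of_le (Finset.mem_range.1 h1) hr,
      Finset.mem_singleton.1 h2⟩)
  obtain ⟨e⟩ : Nonempty ({p // Top p} ≃ ↥(piece L v a b c \ Finset.range r ×ˢ {a})) := by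
    refine ⟨Fintype.equivOfCardEq ?_⟩
    rw [hTop, Fintype.card_coe, Finset.card_sdiff_of_subset hra, hpc]
    simp
    omega
  let key : {p // inβ p} → ℕ := fun p => (Fintype.equivFin _ p : ℕ)
  have hkey : Function.Injective key := fun p q h => (Fintype.equivFin _).injective (Fin.ext h)
  let W : α → ℕ := fun p => if hp : Top p then (e ⟨p, hp⟩).1.1 else V' (hdown p hp).choose
  let T : Finset {p // inβ p} → α → ℕ := fun Z p =>
    if hp : inβ p then alternate a b c key Z ⟨p, hp⟩
    else T' (hdown p fun h => hp (Or.inl h)).choose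
  let σ : Equiv.Perm α := S.shift * S.ext' S.low.shift
  let E : Equiv.Perm S.low.Low → Equiv.Perm α := fun y => S.ext' (S.low.ext' y)
  have hWup : ∀ q, W (up q) = V' q := fun q => by
    simp only [W, dif_neg (hnotTop q)]
    exact congrArg V' (hup (hdown (up q) (hnotTop q)).choose_spec)
  have hTup : ∀ Z q, T' q ≠ a → T Z (up q) = T' q := fun Z q hq => by
    have hn : ¬ inβ (up q) := fun h => h.elim (hnotTop q) fun ⟨q', e, e'⟩ => hq (hup e ▸ e')
    simp only [T, dif_neg hn]
    exact congrArg T' (hup (hdown (up q) (hnotTop q)).choose_spec)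
  have hout : ∀ p, ¬ inβ p → ∃ q, up q = p ∧ T' q ≠ a := fun p hp => by
    obtain ⟨q, rfl⟩ := hdown p fun h => hp (Or.inl h)
    exact ⟨q, rfl, fun h => hp (Or.inr ⟨q, rfl, h⟩)⟩
  let Out : (α → ℕ) → Prop := fun W' =>
    Fills Dout (fun q : {q // T' q ≠ a} => W' (up q.1)) fun q => T' q.1
  -- the colourings split
  have hsplit : ∀ (W' : α → ℕ) Z, Fills D W' (T Z) ↔
      Fills (piece L v a b c) (fun p : {p // inβ p} => W' p.1) (alternate a b c key Z) ∧ Out W' := by
    intro W' Z
    have hTβ : ∀ p : {p // inβ p}, T Z p.1 = alternate a b c key Z p := fun p => dif_pos p.2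
    have halt : ∀ p, alternate a b c key Z p = a ∨ alternate a b c key Z p = b
        ∨ alternate a b c key Z p = c := fun p => by unfold alternate; split_ifs <;> simp
    constructor
    · rintro ⟨h1, h2⟩
      refine ⟨⟨fun p q e => Subtype.ext (h1 ?_), fun p => ?_⟩, ⟨fun q q' e => ?_, fun q => ?_⟩⟩
      · simpa [hTβ] using e
      · show (W' p.1, alternate a b c key Z p) ∈ piece L v a b c
        rw [hpD, Finset.mem_sdiff, ← hTβ]
        refine ⟨h2 p.1, fun hm => ?_⟩
        have := (Finset.mem_filter.1 hm).2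
        rw [hTβ] at this
        rcases halt p with e | e | e <;> simp [e] at this
      · refine Subtype.ext (hup (h1 ?_))
        simpa [hTup Z _ q.2, hTup Z _ q'.2] using e
      · refine Finset.mem_filter.2 ⟨?_, q.2, (hT' q.1).1, (hT' q.1).2⟩
        have := h2 (up q.1)
        rwa [hTup Z _ q.2] at this
    · rintro ⟨⟨h1, h2⟩, ⟨h3, h4⟩⟩
      refine ⟨fun p p' e => ?_, fun p => ?_⟩
      · have eW : W' p = W' p' := congrArg Prod.fst e
        have eT : T Z p = T Z p' := congrArg Prod.snd e
        by_cases hp : inβ p <;> by_cases hp' : inβ p'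
        · exact congrArg Subtype.val (h1 (a₁ := ⟨p, hp⟩) (a₂ := ⟨p', hp'⟩)
            (Prod.ext eW ((hTβ ⟨p, hp⟩).symm.trans (eT.trans (hTβ ⟨p', hp'⟩)))))
        · obtain ⟨q, rfl, hq⟩ := hout p' hp'
          rw [hTβ ⟨p, hp⟩, hTup Z q hq] at eT
          rcases halt ⟨p, hp⟩ with e | e | e <;> rw [e] at eT
          · exact absurd eT.symm hq
          · exact absurd eT.symm (hT' q).1
          · exact absurd eT.symm (hT' q).2
        · obtain ⟨q, rfl, hq⟩ := hout p hp
          rw [hTβ ⟨p', hp'⟩, hTup Z q hq] at eT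
          rcases halt ⟨p', hp'⟩ with e | e | e <;> rw [e] at eT
          · exact absurd eT hq
          · exact absurd eT (hT' q).1
          · exact absurd eT (hT' q).2
        · obtain ⟨q, rfl, hq⟩ := hout p hp
          obtain ⟨q', rfl, hq'⟩ := hout p' hp'
          exact congrArg (fun z : {q // T' q ≠ a} => up z.1) (h3 (a₁ := ⟨q, hq⟩) (a₂ := ⟨q', hq'⟩)
            (Prod.ext eW ((hTup Z q hq).symm.trans (eT.trans (hTup Z q' hq')))))
      · by_cases hp : inβ p
        · have := h2 ⟨p, hp⟩
          rw [hpD, Finset.mem_sdiff, ← hTβ] at this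
          exact this.1
        · obtain ⟨q, rfl, hq⟩ := hout p hp
          rw [hTup Z q hq]
          exact (Finset.mem_filter.1 (h4 ⟨q, hq⟩)).1
  let G : (α → ℕ) → ZMod 2 := fun W' =>
    if Out W' ∧ ∃ T₀, Fills (piece L v a b c) (fun p : {p // inβ p} => W' p.1) T₀ then 1 else 0
  have hF : ∀ W' : α → ℕ,
      (∑ Z, if Fills D W' (T Z) then 1 else 0 : ZMod 2) = G W' := fun W' => by
    simp only [hsplit]
    by_cases hO : Out W'
    · simp only [hO, and_true, G, true_and]
      exact triple_parity hv hab hac hbc hkey hβc _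
    · simp [hO, G]
  let V : α → ℕ := W ∘ ⇑σ⁻¹
  have hinv : ∀ (x τ : Equiv.Perm α), (∀ p, ¬ Top p → τ p = p) →
      G (V ∘ ⇑(x * τ)) = G (V ∘ ⇑x) := by
    intro x τ hτ
    have hmap : ∀ p, inβ (τ p) ↔ inβ p := fun p => by
      by_cases hp : Top p
      · refine iff_of_true (Or.inl ?_) (Or.inl hp)
        by_contra hn
        have := τ.injective (hτ _ hn)
        rw [this] at hn
        exact hn hp
      · rw [hτ p hp]
    refine if_congr (and_congr ?_ ?_) rfl rfl
    · refine Iff.of_eq (congrArg (fun f => Fills Dout f _) (funext fun q => ?_))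
      simp [hτ _ (hnotTop q.1)]
    · let τ' : Equiv.Perm {p // inβ p} := τ.subtypePerm hmap
      constructor
      · rintro ⟨T₀, h0⟩
        refine ⟨T₀ ∘ ⇑τ'⁻¹, (fills_comp_iff τ' _ _ _).1 ?_⟩
        have e1 : (T₀ ∘ ⇑τ'⁻¹) ∘ ⇑τ' = T₀ := funext fun p => congrArg T₀ (τ'.symm_apply_apply p)
        rw [e1]
        exact h0
      · rintro ⟨T₀, h0⟩
        exact ⟨T₀ ∘ τ', (fills_comp_iff τ' _ _ _).2 h0⟩
  have hEtop : ∀ y p, Top p → E y p = p := fun y p hp => by
    show S.ext' (S.low.ext' y) p = p
    by_cases h0 : S.row p = 0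
    · exact S.ext'_top _ h0
    · rw [S.ext'_low _ ⟨p, h0⟩, S.low.ext'_top y (p := ⟨p, h0⟩)
        (show S.row p - 1 = 0 by rcases hp with h | h <;> omega)]
  have hEup : ∀ y q, E y (up q) = up (y q) := fun y q => by
    show S.ext' (S.low.ext' y) q.1.1 = (y q).1.1
    rw [S.ext'_low _ q.1, S.low.ext'_low y q]
  -- below two rows
  have hbot : ∀ y : Equiv.Perm S.low.Low,
      G (W ∘ ⇑(E y)) = if Fills D' (V' ∘ y) T' then 1 else 0 := by
    intro y
    have hWt : ∀ p : {p // Top p}, (W ∘ ⇑(E y)) p.1 = (e p).1.1 := fun p => by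
      show W (E y p.1) = _
      rw [hEtop y p.1 p.2]
      exact dif_pos p.2
    have hWb : ∀ q, (W ∘ ⇑(E y)) (up q) = V' (y q) := fun q => by
      show W (E y (up q)) = _
      rw [hEup, hWup]
    refine if_congr ⟨fun ⟨hO, T₀, h1, h2⟩ => ?_, fun hfill => ?_⟩ rfl rfl
    · have hbij : Function.Bijective fun p => (⟨_, h2 p⟩ : (piece L v a b c)) :=
        (Fintype.bijective_iff_injective_and_card _).2
          ⟨fun p q he => h1 (congrArg Subtype.val he), by rw [Fintype.card_coe, hβc, hpc]⟩
      have hcnt : ∀ i, ∑ q : {q // T' q = a}, (if V' (y q.1) = i then 1 else 0 : ℕ)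
          = if i < r then 1 else 0 := fun i => by
        have h0 : ∑ p : {p // inβ p}, (if (W ∘ ⇑(E y)) p.1 = i then 1 else 0 : ℕ)
            = ∑ z ∈ piece L v a b c, if z.1 = i then 1 else 0 := by
          rw [← Finset.sum_coe_sort (piece L v a b c), ← (Equiv.ofBijective _ hbij).sum_comp]
          rfl
        rw [← (Equiv.ofBijective _ hjoin).sum_comp, Fintype.sum_sum_type,
          ← Finset.sum_sdiff hra] at h0
        have h3 : ∑ p : {p // Top p}, (if (W ∘ ⇑(E y)) (join (Sum.inl p)).1 = i then 1 else 0 : ℕ)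
            = ∑ z ∈ piece L v a b c \ Finset.range r ×ˢ {a}, if z.1 = i then 1 else 0 := by
          refine Eq.trans ?_ ((e.sum_comp fun z => if z.1.1 = i then 1 else 0).trans
            (Finset.sum_coe_sort _ fun z : ℕ × ℕ => if z.1 = i then 1 else 0))
          exact Finset.sum_congr rfl fun p _ => by
            rw [show (join (Sum.inl p)).1 = p.1 from rfl, hWt]
        have h4 : ∑ z ∈ Finset.range r ×ˢ ({a} : Finset ℕ), (if z.1 = i then 1 else 0 : ℕ)
            = if i < r then 1 else 0 := by
          rw [Finset.sum_product]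
          simp only [Finset.sum_singleton, Finset.sum_ite_eq', Finset.mem_range]
        simp only [Equiv.ofBijective_apply] at h0
        rw [h3, h4] at h0
        have h5 := Nat.add_left_cancel h0
        refine Eq.trans ?_ h5
        exact Finset.sum_congr rfl fun q _ => by
          rw [show (join (Sum.inr q)).1 = up q.1 from rfl, hWb]
      have hlt : ∀ q, T' q = a → V' (y q) < r := fun q hq => by
        by_contra hn
        have := hcnt (V' (y q))
        rw [if_neg hn] at this
        have := Finset.sum_eq_zero_iff.1 this ⟨q, hq⟩ (Finset.mem_univ _)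
        simp at this
      refine ⟨fun q q' he => ?_, fun q => ?_⟩
      · have eV : V' (y q) = V' (y q') := congrArg Prod.fst he
        have eT : T' q = T' q' := congrArg Prod.snd he
        by_cases hq : T' q = a
        · by_contra hne
          have := hcnt (V' (y q))
          rw [if_pos (hlt q hq), ← Finset.sum_filter_add_sum_filter_not Finset.univ
            (fun z : {q // T' q = a} => V' (y z.1) = V' (y q))] at this
          have h6 : ({⟨q, hq⟩, ⟨q', eT ▸ hq⟩} : Finset {q // T' q = a}).card
              ≤ (Finset.univ.filter fun z : {q // T' q = a} => V' (y z.1) = V' (y q)).card :=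
            Finset.card_le_card fun z hz => by
              rcases Finset.mem_insert.1 hz with rfl | hz
              · simp
              · rw [Finset.mem_singleton.1 hz]; simp [eV]
          rw [Finset.card_pair fun h => hne (congrArg Subtype.val h)] at h6
          rw [Finset.sum_congr rfl fun z hz => if_pos (Finset.mem_filter.1 hz).2,
            Finset.sum_const, smul_eq_mul, mul_one] at this
          omega
        · exact congrArg Subtype.val (hO.1 (a₁ := ⟨q, hq⟩) (a₂ := ⟨q', eT ▸ hq⟩)
            (Prod.ext ((hWb q).trans (eV.trans (hWb q').symm)) eT))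
      · by_cases hq : T' q = a
        · refine Finset.mem_union_right _ (Finset.mem_product.2 ⟨?_, ?_⟩)
          · exact Finset.mem_range.2 (hlt q hq)
          · exact Finset.mem_singleton.2 hq
        · have := hO.2 ⟨q, hq⟩
          rw [show (fun z : {q // T' q ≠ a} => (W ∘ ⇑(E y)) (up z.1)) ⟨q, hq⟩ = V' (y q) from
            hWb q] at this
          exact Finset.mem_union_left _ this
    · refine ⟨⟨fun q q' he => ?_, fun q => ?_⟩, ?_⟩
      · have eV : V' (y q.1) = V' (y q'.1) :=
          (hWb q.1).symm.trans ((congrArg Prod.fst he).trans (hWb q'.1))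
        exact Subtype.ext (hfill.1 (Prod.ext eV (congrArg Prod.snd he :)))
      · show ((W ∘ ⇑(E y)) (up q.1), T' q.1) ∈ Dout
        rw [hWb]
        rcases Finset.mem_union.1 (hfill.2 q.1) with h | h
        · exact h
        · exact absurd (Finset.mem_singleton.1 (Finset.mem_product.1 h).2) q.2
      · let ec := Equiv.ofBijective _ hjoin
        let T₁ : {p // Top p} ⊕ {q // T' q = a} → ℕ := Sum.elim (fun p => (e p).1.2) fun _ => a
        have hB' : ∀ q : {q // T' q = a}, (V' (y q.1), a) ∈ Finset.range r ×ˢ ({a} : Finset ℕ) :=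
          fun q => by
            have hm : (V' (y q.1), T' q.1) ∈ D' := hfill.2 q.1
            rw [q.2] at hm
            rcases Finset.mem_union.1 hm with h | h
            · exact absurd rfl (Finset.mem_filter.1 h).2.1
            · exact h
        refine ⟨T₁ ∘ ec.symm, (fills_comp_iff ec _ _ _).1 ?_⟩
        rw [show (T₁ ∘ ⇑ec.symm) ∘ ⇑ec = T₁ from funext fun z => congrArg T₁ (ec.symm_apply_apply z)]
        have hcell : ∀ z, ((W ∘ ⇑(E y)) (ec z).1, T₁ z) = (Sum.elim (fun p => (e p).1)
            (fun q : {q // T' q = a} => (V' (y q.1), a)) z) := by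
          rintro (p | q)
          · exact Prod.ext (hWt p) rfl
          · exact Prod.ext (hWb q.1) rfl
        refine ⟨fun z z' he => ?_, fun z => ?_⟩
        · have he' := (hcell z).symm.trans (he.trans (hcell z'))
          rcases z with p | q <;> rcases z' with p' | q'
          · exact congrArg _ (e.injective (Subtype.ext he'))
          · exact absurd (show (e p).1 ∈ Finset.range r ×ˢ {a} by
              rw [show (e p).1 = _ from he']; exact hB' q') (Finset.mem_sdiff.1 (e p).2).2
          · exact absurd (show (e p').1 ∈ Finset.range r ×ˢ {a} by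
              rw [show (e p').1 = _ from he'.symm]; exact hB' q) (Finset.mem_sdiff.1 (e p').2).2
          · exact congrArg _ (Subtype.ext (hfill.1 (Prod.ext (congrArg Prod.fst he' :)
              (q.2.trans q'.2.symm))))
        · show ((W ∘ ⇑(E y)) (ec z).1, T₁ z) ∈ _
          rw [hcell]
          rcases z with p | q
          · exact (Finset.mem_sdiff.1 (e p).2).1
          · exact hra (hB' q)
  -- conclusion
  have hmain : ∑ x ∈ S.both, G (V ∘ ⇑x) = 1 := by
    rw [S.sum_both_step (fun z : ZMod 2 => CharTwo.add_self_eq_zero z) (fun x => G (V ∘ ⇑x))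
      fun x τ _ hτ => hinv x τ fun p hp => hτ p fun h0 => hp (Or.inl h0)]
    rw [S.low.sum_both_step (fun z : ZMod 2 => CharTwo.add_self_eq_zero z)
      (fun y => G (V ∘ ⇑(S.shift * S.ext' y))) fun y τ _ hτ => by
        have e1 : S.shift * S.ext' (y * τ) = S.shift * S.ext' y * S.ext' τ := by
          rw [mul_assoc]
          exact congrArg _ (map_mul Equiv.Perm.ofSubtype y τ)
        rw [e1]
        refine hinv _ _ fun p hp => ?_
        have h0 : ¬ S.row p = 0 := fun h0 => hp (Or.inl h0)
        rw [S.ext'_low τ ⟨p, h0⟩, hτ ⟨p, h0⟩ fun h1 => hp (Or.inr (by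
          change S.row p - 1 = 0 at h1; omega))]]
    refine Eq.trans (Finset.sum_congr rfl fun y _ => ?_) h
    have e1 : S.shift * S.ext' (S.low.shift * S.low.ext' y) = σ * E y := by
      simp only [σ, E, mul_assoc]
      exact congrArg _ (map_mul Equiv.Perm.ofSubtype _ _)
    rw [e1]
    refine Eq.trans (congrArg G (funext fun p => ?_)) (hbot y)
    exact congrArg W (σ.symm_apply_apply (E y p))
  simp only [← hF] at hmain
  rw [Finset.sum_comm] at hmain
  obtain ⟨Z, -, hZ⟩ := Finset.exists_ne_zero_of_sum_ne_zero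
    (show ∑ Z, parity S D V (T Z) ≠ 0 by unfold parity; rw [hmain]; exact one_ne_zero)
  refine ⟨V, T Z, ?_⟩
  have : ∀ z : ZMod 2, z ≠ 0 → z = 1 := by decide
  exact this _ hZ

end

end P197
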