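import Mathlib

/-!
# P197: a boxed diagram has three columns or three rows that can be peeled

A diagram with `m (m + 1) / 2` cells in the `(m - 1) × (m - 1)` box has, itself or transposed, two
columns of one length `v` and a third of length at least `v` with `2 m - 1` cells in all. Otherwise
equal neighbouring columns are short, so the diagram lies under two steep hats and is too small.
-/

namespace P197

open YoungDiagram

/-- Twice the cells in a triangle of the hat. -/
theorem two_mul_tri_sum (x : ℕ) : 2 * ∑ j ∈ Finset.range x, (x + 1 - j) = x * (x + 3) := by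
  induction x with
  | zero => simp
  | succ x ih =>
    rw [Finset.sum_range_succ']
    have h : ∀ j, x + 1 + 1 - (j + 1) = x + 1 - j := fun j => by omega
    simp only [h, mul_add, ih, Nat.sub_zero]
    ring

/-- Without a peelable triple the columns decrease strictly down to the threshold. -/
theorem colLen_le_hat (p : ℕ) (μ : YoungDiagram)
    (h : ¬ ∃ a b c : ℕ, a ≠ b ∧ a ≠ c ∧ b ≠ c ∧ b < μ.rowLen 0 ∧ c < μ.rowLen 0 ∧
      μ.colLen b = μ.colLen c ∧ μ.colLen b ≤ μ.colLen a ∧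
      2 * p + 1 ≤ μ.colLen a + 2 * μ.colLen b) (k : ℕ) :
    μ.colLen k ≤ max (μ.colLen 0 + 1 - k) ((2 * p - μ.colLen 0) / 2) := by
  induction k with
  | zero => exact le_max_of_le_left (Nat.le_succ _)
  | succ k ih =>
    have hk : μ.colLen (k + 1) ≤ μ.colLen k := μ.colLen_anti k (k + 1) (Nat.le_succ k)
    have h0 : μ.colLen k ≤ μ.colLen 0 := μ.colLen_anti 0 k (Nat.zero_le k)
    rcases Nat.eq_zero_or_pos k with rfl | hkpos
    · exact le_max_of_le_left (by omega)
    rcases hk.lt_or_eq with hlt | heq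
    · rcases le_max_iff.1 ih with h1 | h1
      · exact le_max_of_le_left (by omega)
      · exact le_max_of_le_right (by omega)
    · by_cases hz : μ.colLen (k + 1) = 0
      · omega
      have hmem : (0, k + 1) ∈ μ := YoungDiagram.mem_iff_lt_colLen.2 (by omega)
      have hlen : k + 1 < μ.rowLen 0 := YoungDiagram.mem_iff_lt_rowLen.1 hmem
      have hno : ¬ 2 * p + 1 ≤ μ.colLen 0 + 2 * μ.colLen k := fun hle =>
        h ⟨0, k, k + 1, by omega, by omega, by omega, by omega, hlen, heq.symm, h0, hle⟩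
      exact le_max_of_le_right (by omega)

/-- The cells below two hats. -/
theorem two_mul_card_le_hats (μ : YoungDiagram) {M n u w : ℕ} (hu : u ≤ M) (hw : w ≤ n)
    (hbox : ∀ i k, (i, k) ∈ μ → i < M ∧ k < n)
    (hB : ∀ i k, (i, k) ∈ μ → u ≤ i → i + k ≤ M)
    (hC : ∀ i k, (i, k) ∈ μ → w ≤ k → i + k ≤ n) :
    2 * μ.card ≤ 2 * (u * w) + (M - u) * (M - u + 3) + (n - w) * (n - w + 3) := by
  let A : Finset (ℕ × ℕ) := Finset.range u ×ˢ Finset.range w
  let B : Finset (ℕ × ℕ) :=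
    (Finset.Ico u M).biUnion fun i => {i} ×ˢ Finset.range (M + 1 - i)
  let C : Finset (ℕ × ℕ) :=
    (Finset.Ico w n).biUnion fun k => Finset.range (n + 1 - k) ×ˢ {k}
  have hsub : μ.cells ⊆ A ∪ B ∪ C := by
    rintro ⟨i, k⟩ hc
    have hm : (i, k) ∈ μ := (μ.mem_cells (i, k)).1 hc
    obtain ⟨hi, hk⟩ := hbox i k hm
    simp only [A, B, C, Finset.mem_union, Finset.mem_biUnion, Finset.mem_product, Finset.mem_range,
      Finset.mem_singleton, Finset.mem_Ico]
    by_cases h1 : u ≤ i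
    · exact Or.inl (Or.inr ⟨i, ⟨h1, hi⟩, rfl, by have := hB i k hm h1; omega⟩)
    by_cases h2 : w ≤ k
    · exact Or.inr ⟨k, ⟨h2, hk⟩, by have := hC i k hm h2; omega, rfl⟩
    exact Or.inl (Or.inl ⟨by omega, by omega⟩)
  have htri : ∀ a b : ℕ, a ≤ b →
      2 * ∑ i ∈ Finset.Ico a b, (b + 1 - i) = (b - a) * (b - a + 3) := fun a b hab => by
    rw [Finset.sum_Ico_eq_sum_range, ← two_mul_tri_sum (b - a)]
    exact congrArg (2 * ·) (Finset.sum_congr rfl fun j _ => by omega)
  have h1 : B.card ≤ ∑ i ∈ Finset.Ico u M, (M + 1 - i) :=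
    Finset.card_biUnion_le.trans (le_of_eq (Finset.sum_congr rfl fun i _ => by simp))
  have h2 : C.card ≤ ∑ k ∈ Finset.Ico w n, (n + 1 - k) :=
    Finset.card_biUnion_le.trans (le_of_eq (Finset.sum_congr rfl fun i _ => by simp))
  have hA : A.card = u * w := by simp [A]
  have h3 : μ.card ≤ A.card + B.card + C.card :=
    (Finset.card_le_card hsub).trans ((Finset.card_union_le _ _).trans
      (Nat.add_le_add_right (Finset.card_union_le _ _) _))
  have e1 := htri u M hu
  have e2 := htri w n hw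
  omega

/-- The low hat: threshold rounded down. -/
theorem hat_floor {p M u x : ℕ} (hp : 0 < p) (hM : M ≤ p) (hu : u = min ((2 * p - M) / 2) M)
    (hx : x = M - u) :
    2 * u ^ 2 + 2 * (x * (x + 3)) ≤ (p + 1) * (p + 2) + 2 ∧
      (p % 2 = 0 → 2 * u ^ 2 + 2 * (x * (x + 3)) + 2 ≤ (p + 1) * (p + 2)) := by
  rcases Nat.le_total M ((2 * p - M) / 2) with h | h
  · rw [min_eq_right h] at hu
    have hx0 : x = 0 := by omega
    have h3 : 3 * u ≤ 2 * p := by omega
    subst hx0
    constructor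
    · nlinarith [mul_le_mul h3 h3 (Nat.zero_le _) (Nat.zero_le _)]
    · intro _
      nlinarith [mul_le_mul h3 h3 (Nat.zero_le _) (Nat.zero_le _)]
  · rw [min_eq_left h] at hu
    obtain ⟨e, he, hsum⟩ : ∃ e, e ≤ 1 ∧ 3 * u + x + e = 2 * p := ⟨(2 * p - M) % 2, by omega, by omega⟩
    have hux : u + x ≤ p := by omega
    have hp2 : p = p % 2 + 2 * (p / 2) := by omega
    constructor
    · zify at he hsum hux hp ⊢
      nlinarith [mul_nonneg (show (0 : ℤ) ≤ p - u - x by linarith) (show (0 : ℤ) ≤ x by positivity)]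
    · intro heven
      have h2 : p ≤ 2 * u := by omega
      zify at he hsum hux hp h2 ⊢
      nlinarith [mul_nonneg (show (0 : ℤ) ≤ 2 * u - p by linarith) (show (0 : ℤ) ≤ x by positivity)]

/-- The high hat: threshold rounded up. -/
theorem hat_ceil {p n w y : ℕ} (hp : 0 < p) (hn : n ≤ p) (hw : w = min ((2 * p - n + 1) / 2) n)
    (hy : y = n - w) :
    2 * w ^ 2 + 2 * (y * (y + 3)) + 2 ≤ (p + 1) * (p + 2) ∧
      (p % 2 = 1 → 2 * w ^ 2 + 2 * (y * (y + 3)) + 4 ≤ (p + 1) * (p + 2)) := by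
  rcases Nat.le_total n ((2 * p - n + 1) / 2) with h | h
  · rw [min_eq_right h] at hw
    have hy0 : y = 0 := by omega
    have h3 : 3 * w ≤ 2 * p + 1 := by omega
    subst hy0
    constructor
    · nlinarith [mul_le_mul h3 h3 (Nat.zero_le _) (Nat.zero_le _)]
    · intro _
      nlinarith [mul_le_mul h3 h3 (Nat.zero_le _) (Nat.zero_le _)]
  · rw [min_eq_left h] at hw
    obtain ⟨e, he, hsum⟩ : ∃ e, e ≤ 1 ∧ 3 * w + y = 2 * p + e := ⟨(2 * p - n) % 2, by omega, by omega⟩
    have hwy : w + y ≤ p := by omega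
    have h2 : p + e ≤ 2 * w := by omega
    constructor
    · zify at he hsum hwy hp h2 ⊢
      nlinarith [mul_nonneg (show (0 : ℤ) ≤ 2 * w - p - e by linarith) (show (0 : ℤ) ≤ y by positivity)]
    · intro hodd
      have h2' : p + 1 ≤ 2 * w := by omega
      zify at he hsum hwy hp h2 h2' ⊢
      nlinarith [mul_nonneg (show (0 : ℤ) ≤ 2 * w - p - 1 by linarith) (show (0 : ℤ) ≤ y by positivity)]

/-- **A peelable triple exists** in a boxed diagram of the size of the staircase, or in its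
transpose. -/
theorem exists_triple (m : ℕ) (ν : YoungDiagram) (hN : ν.card = m * (m + 1) / 2)
    (hr : ν.rowLen 0 < m) (hc : ν.colLen 0 < m) :
    ∃ μ : YoungDiagram, (μ = ν ∨ μ = ν.transpose) ∧ ∃ a b c : ℕ, a ≠ b ∧ a ≠ c ∧ b ≠ c ∧
      b < μ.rowLen 0 ∧ c < μ.rowLen 0 ∧ μ.colLen b = μ.colLen c ∧ μ.colLen b ≤ μ.colLen a ∧
      2 * m - 1 ≤ μ.colLen a + 2 * μ.colLen b := by
  obtain ⟨p, rfl⟩ : ∃ p, m = p + 1 := ⟨m - 1, by omega⟩
  have hm : 2 * (p + 1) - 1 = 2 * p + 1 := by omega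
  rw [hm]
  by_contra hcon
  push Not at hcon
  have hν : ¬ ∃ a b c : ℕ, a ≠ b ∧ a ≠ c ∧ b ≠ c ∧ b < ν.rowLen 0 ∧ c < ν.rowLen 0 ∧
      ν.colLen b = ν.colLen c ∧ ν.colLen b ≤ ν.colLen a ∧
      2 * p + 1 ≤ ν.colLen a + 2 * ν.colLen b := by
    rintro ⟨a, b, c, h1, h2, h3, h4, h5, h6, h7, h8⟩
    have := hcon ν (Or.inl rfl) a b c h1 h2 h3 h4 h5 h6 h7
    omega
  have hνt : ¬ ∃ a b c : ℕ, a ≠ b ∧ a ≠ c ∧ b ≠ c ∧ b < ν.transpose.rowLen 0 ∧
      c < ν.transpose.rowLen 0 ∧ ν.transpose.colLen b = ν.transpose.colLen c ∧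
      ν.transpose.colLen b ≤ ν.transpose.colLen a ∧
      2 * p + 1 ≤ ν.transpose.colLen a + 2 * ν.transpose.colLen b := by
    rintro ⟨a, b, c, h1, h2, h3, h4, h5, h6, h7, h8⟩
    have := hcon ν.transpose (Or.inr rfl) a b c h1 h2 h3 h4 h5 h6 h7
    omega
  set M := ν.colLen 0 with hMdef
  set n := ν.rowLen 0 with hndef
  have hcol : ∀ k, ν.colLen k ≤ max (M + 1 - k) ((2 * p - M) / 2) :=
    colLen_le_hat p ν hν
  have hrow : ∀ i, ν.rowLen i ≤ max (n + 1 - i) ((2 * p - n) / 2) := fun i => by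
    simpa [hndef] using colLen_le_hat p ν.transpose hνt i
  have hbox : ∀ i k, (i, k) ∈ ν → i < M ∧ k < n := fun i k hik =>
    ⟨YoungDiagram.mem_iff_lt_colLen.1 (ν.up_left_mem le_rfl (Nat.zero_le k) hik),
      YoungDiagram.mem_iff_lt_rowLen.1 (ν.up_left_mem (Nat.zero_le i) le_rfl hik)⟩
  set u := min ((2 * p - M) / 2) M with hudef
  set w := min ((2 * p - n + 1) / 2) n with hwdef
  have hbound := two_mul_card_le_hats ν (M := M) (n := n) (u := u) (w := w) (min_le_right _ _)
    (min_le_right _ _) hbox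
    (fun i k hik hi => by
      have h1 := YoungDiagram.mem_iff_lt_colLen.1 hik
      have h2 := hcol k
      have h3 := (hbox i k hik).1
      omega)
    (fun i k hik hk => by
      have h1 := YoungDiagram.mem_iff_lt_rowLen.1 hik
      have h2 := hrow i
      have h3 := (hbox i k hik).2
      omega)
  have hcard : 2 * ν.card = (p + 1) * (p + 2) := by
    rw [hN, show p + 1 + 1 = p + 2 from rfl]
    exact Nat.two_mul_div_two_of_even (by
      rw [show p + 2 = (p + 1) + 1 from rfl]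
      exact Nat.even_mul_succ_self (p + 1))
  have hp : 0 < p := by
    by_contra hp0
    have hp' : p = 0 := by omega
    subst hp'
    have hne : ν.card ≠ 0 := by omega
    obtain ⟨⟨i, k⟩, hik⟩ := Finset.card_ne_zero.1 hne
    have := (hbox i k ((ν.mem_cells (i, k)).1 hik)).1
    omega
  obtain ⟨hF, hF'⟩ := hat_floor hp (show M ≤ p by omega) hudef (rfl : M - u = M - u)
  obtain ⟨hG, hG'⟩ := hat_ceil hp (show n ≤ p by omega) hwdef (rfl : n - w = n - w)
  have huw : 2 * (u * w) ≤ u ^ 2 + w ^ 2 := by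
    have := two_mul_le_add_sq u w
    nlinarith
  rcases Nat.mod_two_eq_zero_or_one p with hpar | hpar
  · have := hF' hpar
    omega
  · have := hG' hpar
    omega

end P197
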