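import Vale.Agent.P197.Reduce
import Vale.Agent.P197.StepTwo
import Vale.Agent.P197.TripleExists

/-!
# P197: every diagram of the size of the staircase has an odd placement

Strong induction on the number of rows of the staircase: a long first row or column loses one row of
the staircase, otherwise three columns lose two rows and the columns left over are sorted.
-/

namespace P197

open scoped Classical

noncomputable section

/-- Columns of any lengths become a diagram after a permutation of the columns. -/
theorem exists_sorted (n : ℕ) (f : ℕ → ℕ) (hf : ∀ j, n ≤ j → f j = 0) :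
    ∃ (μ : YoungDiagram) (g : ℕ → ℕ), Function.Injective g ∧
      ∀ i j, (i, j) ∈ μ.cells.image (fun p => (p.1, g p.2)) ↔ i < f j := by
  set σ := Tuple.sort (fun k : Fin n => OrderDual.toDual (f k)) with hσ
  have hmono := Tuple.monotone_sort (fun k : Fin n => OrderDual.toDual (f k))
  let g : ℕ → ℕ := fun j => if h : j < n then (σ ⟨j, h⟩).1 else j
  have hg : Function.Injective g := fun a b h => by
    simp only [g] at h
    split_ifs at h with ha hb hb
    · exact congrArg Fin.val (σ.injective (Fin.ext h))
    · have := (σ ⟨a, ha⟩).2; omega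
    · have := (σ ⟨b, hb⟩).2; omega
    · exact h
  have hanti : ∀ a b, a ≤ b → b < n → f (g b) ≤ f (g a) := fun a b hab hb => by
    simp only [g, dif_pos hb, dif_pos (lt_of_le_of_lt hab hb)]
    exact hmono (show (⟨a, lt_of_le_of_lt hab hb⟩ : Fin n) ≤ ⟨b, hb⟩ from hab)
  let μ : YoungDiagram :=
    { cells := (Finset.range n).biUnion fun j => Finset.range (f (g j)) ×ˢ {j}
      isLowerSet := by
        rintro ⟨a, b⟩ ⟨a', b'⟩ ⟨ha, hb⟩ h
        simp only [Finset.coe_biUnion, Finset.coe_range, Set.mem_iUnion, Set.mem_Iio,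
          Finset.coe_product, Finset.coe_singleton, Set.mem_prod, Set.mem_singleton_iff] at h ⊢
        change a' ≤ a at ha
        change b' ≤ b at hb
        obtain ⟨j, hj, h1, rfl⟩ := h
        exact ⟨b', lt_of_le_of_lt hb hj, lt_of_le_of_lt ha (lt_of_lt_of_le h1 (hanti b' b hb hj)),
          rfl⟩ }
  refine ⟨μ, g, hg, fun i j => ?_⟩
  simp only [μ, Finset.mem_image, Finset.mem_biUnion, Finset.mem_range, Finset.mem_product,
    Finset.mem_singleton, Prod.exists, Prod.mk.injEq]
  constructor
  · rintro ⟨a, b, ⟨k, hk, hak, rfl⟩, rfl, rfl⟩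
    exact hak
  · intro h
    have hj : j < n := by
      by_contra hn
      rw [hf j (by omega)] at h
      omega
    refine ⟨i, (σ.symm ⟨j, hj⟩).1, ⟨_, (σ.symm ⟨j, hj⟩).2, ?_, rfl⟩, rfl, ?_⟩ <;>
      simp only [g, dif_pos (σ.symm ⟨j, hj⟩).2, Fin.eta, Equiv.apply_symm_apply]
    exact h

/-- The letters are as many as the cells of the staircase. -/
theorem Stair.card_eq {α : Type} [Fintype α] {m : ℕ} (S : Stair α m) :
    Fintype.card α = m * (m + 1) / 2 := by
  rw [← card_staircase m]
  show _ = (staircase m).cells.card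
  rw [← Finset.card_univ]
  refine Finset.card_bij (fun p _ => (S.row p, S.col p)) (fun p _ => ?_)
    (fun p _ q _ h => S.ext p q (congrArg Prod.fst h) (congrArg Prod.snd h)) fun c hc => ?_
  · have := S.lt p
    exact Finset.mem_filter.2 ⟨Finset.mem_product.2
      ⟨Finset.mem_range.2 (by omega), Finset.mem_range.2 (by omega)⟩, this⟩
  · obtain ⟨p, hr, hq⟩ := S.exists_cell c.1 c.2 (Finset.mem_filter.1 hc).2
    exact ⟨p, Finset.mem_univ _, Prod.ext hr hq⟩

/-- A diagram with three columns long enough is odd if the diagrams two rows below all are. -/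
theorem odd'_of_triple {m : ℕ} (ih : ∀ ν : YoungDiagram, ν.card = m * (m + 1) / 2 →
    ∀ {α : Type} [Fintype α] (S : Stair α m), Odd' S ν.cells)
    {μ : YoungDiagram} (hμ : μ.card = (m + 2) * (m + 2 + 1) / 2) (hbox : μ.colLen 0 < m + 2)
    {a b c : ℕ} (hab : a ≠ b) (hac : a ≠ c) (hbc : b ≠ c) (heq : μ.colLen b = μ.colLen c)
    (hle : μ.colLen b ≤ μ.colLen a) (hlen : 2 * (m + 2) - 1 ≤ μ.colLen a + 2 * μ.colLen b)
    {α : Type} [Fintype α] (S : Stair α (m + 2)) : Odd' S μ.cells := by
  have hv := μ.colLen_anti 0 b (Nat.zero_le b)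
  obtain ⟨r, hr⟩ : ∃ r, μ.colLen a + 2 * μ.colLen b = 2 * m + 3 + r :=
    ⟨μ.colLen a + 2 * μ.colLen b - (2 * m + 3), by omega⟩
  have hra : r ≤ μ.colLen a := by omega
  have hD : ∀ i j, (j = a ∨ j = b ∨ j = c) →
      ((i, j) ∈ μ.cells ↔ i < if j = a then μ.colLen a else μ.colLen b) := by
    intro i j hj
    rw [YoungDiagram.mem_cells, YoungDiagram.mem_iff_lt_colLen]
    rcases hj with rfl | rfl | rfl
    · rw [if_pos rfl]
    · rw [if_neg hab.symm]
    · rw [if_neg hac.symm, heq]
  refine Odd'.stepTriple hab hac hbc hle hra hr (hμ.trans S.card_eq.symm) hD ?_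
  set Dout := μ.cells.filter fun p => p.2 ≠ a ∧ p.2 ≠ b ∧ p.2 ≠ c with hDout
  let f : ℕ → ℕ := fun j => if j = a then r else if j = b ∨ j = c then 0 else μ.colLen j
  obtain ⟨ν, g, hg, hν⟩ := exists_sorted (μ.rowLen 0 + a + 1) f fun j hj => by
    have h0 : μ.colLen j = 0 := Nat.eq_zero_of_not_pos fun h => by
      have := YoungDiagram.mem_iff_lt_rowLen.1 (YoungDiagram.mem_iff_lt_colLen.2 h : (0, j) ∈ μ)
      omega
    simp only [f, h0, if_neg (show ¬ j = a by omega), ite_self]
  have himg : ν.cells.image (fun p => (p.1, g p.2)) = Dout ∪ Finset.range r ×ˢ {a} := by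
    ext ⟨i, j⟩
    rw [hν i j, Finset.mem_union, hDout, Finset.mem_filter, Finset.mem_product, Finset.mem_range,
      Finset.mem_singleton, YoungDiagram.mem_cells, YoungDiagram.mem_iff_lt_colLen]
    simp only [f]
    by_cases ha : j = a
    · simp [ha]
    · by_cases hj : j = b ∨ j = c
      · rcases hj with rfl | rfl <;> simp [ha]
      · rw [not_or] at hj
        simp [ha, hj.1, hj.2]
  have hcard : ν.card = m * (m + 1) / 2 := by
    have h1 : (ν.cells.image fun p => (p.1, g p.2)).card = ν.card :=
      Finset.card_image_of_injective _ fun p q h => Prod.ext (Prod.mk.inj h).1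
        (hg (Prod.mk.inj h).2)
    have hout : Disjoint Dout (Finset.range r ×ˢ {a}) := Finset.disjoint_left.2 fun x hx hx' =>
      (Finset.mem_filter.1 hx).2.1 (Finset.mem_singleton.1 (Finset.mem_product.1 hx').2)
    have hp : piece (μ.colLen a) (μ.colLen b) a b c = μ.cells \ Dout := by
      ext ⟨i, j⟩
      rw [mem_piece, Finset.mem_sdiff, hDout, Finset.mem_filter]
      by_cases hj : j = a ∨ j = b ∨ j = c
      · rw [hD i j hj]
        rcases hj with rfl | rfl | rfl <;>
          simp [hab, hac, hbc, hab.symm, hac.symm, hbc.symm]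
      · simp only [not_or] at hj
        simp [hj.1, hj.2.1, hj.2.2]
    have hpc : (piece (μ.colLen a) (μ.colLen b) a b c).card = μ.colLen a + 2 * μ.colLen b := by
      rw [piece, Finset.card_union_of_disjoint, Finset.card_union_of_disjoint,
        Finset.card_product, Finset.card_product, Finset.card_product] <;>
        simp [Finset.disjoint_left, hab.symm, hac.symm, hbc.symm] <;> omega
    have h2 := Finset.card_sdiff_add_card_eq_card
      (show Dout ⊆ μ.cells from Finset.filter_subset _ _)
    rw [← hp, hpc, show μ.cells.card = μ.card from rfl, hμ] at h2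
    rw [himg, Finset.card_union_of_disjoint hout, Finset.card_product, Finset.card_range,
      Finset.card_singleton] at h1
    have h3 : (m + 2) * (m + 2 + 1) = m * (m + 1) + 2 * (2 * m + 3) := by ring
    rw [h3, Nat.add_mul_div_left _ _ (by norm_num : (0 : ℕ) < 2)] at h2
    omega
  have h := (ih ν hcard S.low.low).relabel Function.injective_id hg
  simp only [id_eq] at h
  rwa [himg] at h

/-- **Every diagram of the size of the staircase has an odd placement.** -/
theorem odd'_full : ∀ (m : ℕ) (ν : YoungDiagram), ν.card = m * (m + 1) / 2 →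
    ∀ {α : Type} [Fintype α] (S : Stair α m), Odd' S ν.cells := by
  intro m
  induction m using Nat.strong_induction_on with
  | _ m ih =>
    intro ν hν α _ S
    rcases m with _ | m
    · have : ν.cells = ∅ := Finset.card_eq_zero.1 (by simpa using hν)
      rw [this]
      exact odd'_zero S
    by_cases hlong : m + 1 ≤ ν.colLen 0 ∨ m + 1 ≤ ν.rowLen 0
    · exact odd'_long (ih m (by omega)) hν hlong S
    rw [not_or, not_le, not_le] at hlong
    obtain ⟨μ, hμ, a, b, c, hab, hac, hbc, -, -, heq, hle, hlen⟩ :=
      exists_triple (m + 1) ν hν hlong.2 hlong.1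
    have hbox : μ.colLen 0 < m + 1 := by
      rcases hμ with rfl | rfl
      · exact hlong.1
      · simpa using hlong.2
    have hcard : μ.card = (m + 1) * (m + 1 + 1) / 2 := by
      rcases hμ with rfl | rfl
      · exact hν
      · rw [← hν]
        show ν.transpose.cells.card = ν.cells.card
        simp [YoungDiagram.transpose]
    rcases m with _ | m
    · have := μ.colLen_anti 0 a (Nat.zero_le a)
      omega
    have hodd : Odd' S μ.cells :=
      odd'_of_triple (ih m (by omega)) hcard hbox hab hac hbc heq hle hlen S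
    rcases hμ with rfl | rfl
    · exact hodd
    · have h := hodd.swap
      have e : ν.transpose.cells.image Prod.swap = ν.cells := by
        ext x
        simp [YoungDiagram.transpose]
        exact ⟨fun ⟨i, j, hm, he⟩ => he ▸ hm, fun hm => ⟨x.2, x.1, hm, rfl⟩⟩
      rwa [e] at h

/-- **Saxl's conjecture.** -/
theorem statement_holds : Statement := fun m _ ν hν t u =>
  kronecker_pos_of_odd t u (odd'_full m ν hν (stairOf t))

end

end P197
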