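import Mathlib

/-!
# P197: the forced Latin colouring of a staircase

A set of letters is arranged in the staircase by a row and a column function. The parity count of
the group elements lying, with their inverse, in the row group times the column group is computed.
-/

namespace P197

open scoped Classical

noncomputable section

/-- Letters arranged in a staircase. -/
structure Stair (α : Type) (m : ℕ) : Type where
  row : α → ℕ
  col : α → ℕ
  lt : ∀ p, row p + col p < m
  ext : ∀ p p', row p = row p' → col p = col p' → p = p'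
  exists_cell : ∀ q j, q + j < m → ∃ p, row p = q ∧ col p = j

namespace Stair

variable {α : Type} {m : ℕ} (S : Stair α m)

/-- A permutation keeps every row. -/
def InR (x : Equiv.Perm α) : Prop := ∀ p, S.row (x p) = S.row p

/-- A permutation keeps every column. -/
def InC (x : Equiv.Perm α) : Prop := ∀ p, S.col (x p) = S.col p

/-- A product of a row and a column permutation. -/
def InRC (x : Equiv.Perm α) : Prop := ∃ r c, S.InR r ∧ S.InC c ∧ x = r * c

theorem InR.mul {x y : Equiv.Perm α} (hx : S.InR x) (hy : S.InR y) : S.InR (x * y) := fun p =>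
  (hx (y p)).trans (hy p)

theorem InC.mul {x y : Equiv.Perm α} (hx : S.InC x) (hy : S.InC y) : S.InC (x * y) := fun p =>
  (hx (y p)).trans (hy p)

theorem InR.inv {x : Equiv.Perm α} (hx : S.InR x) : S.InR x⁻¹ := fun p => by
  simpa using (hx (x⁻¹ p)).symm

theorem InC.inv {x : Equiv.Perm α} (hx : S.InC x) : S.InC x⁻¹ := fun p => by
  simpa using (hx (x⁻¹ p)).symm

theorem InR.one : S.InR 1 := fun _ => rfl

theorem InC.one : S.InC 1 := fun _ => rfl

/-- Row and column permutations meet in the identity. -/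
theorem mul_unique {r r' c c' : Equiv.Perm α} (hr : S.InR r) (hr' : S.InR r') (hc : S.InC c)
    (hc' : S.InC c') (h : r * c = r' * c') : r = r' ∧ c = c' := by
  have h1 : r'⁻¹ * r = c' * c⁻¹ := by rw [eq_mul_inv_iff_mul_eq, mul_assoc, h]; group
  have h2 : r'⁻¹ * r = 1 := Equiv.ext fun p => S.ext _ _ ((hr'.inv S).mul S hr p)
    (by rw [h1]; exact hc'.mul S (hc.inv S) p)
  have h3 : r = r' := (inv_mul_eq_one.1 h2).symm
  exact ⟨h3, mul_left_cancel (h3 ▸ h)⟩

/-- The colours are distinct in every row. -/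
def RowInj (V : α → ℕ) : Prop := ∀ p p', S.row p = S.row p' → V p = V p' → p = p'

/-- The colour forced on a cell. -/
def forced (p : α) : ℕ := m - 1 - S.col p - S.row p

/-- A row injective colouring by rows of column permutations is forced. -/
theorem eq_forced (c : Equiv.Perm α) (hc : S.InC c) (hV : S.RowInj fun p => S.row (c p)) :
    ∀ p, S.row (c p) = S.forced p := by
  suffices h : ∀ n q p, m - 1 - S.col p = n → S.row p = q → S.row (c p) = n - q from fun p =>
    h _ _ p rfl rfl
  intro n
  induction n using Nat.strong_induction_on with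
  | _ n ihn =>
    intro q
    induction q using Nat.strong_induction_on with
    | _ q ihq =>
      intro p hn hq
      have h1 := S.lt p
      have h2 : S.row (c p) ≤ n := by
        have := S.lt (c p)
        rw [hc p] at this
        omega
      have h3 : n - q ≤ S.row (c p) := by
        by_contra hlt
        obtain ⟨p', hr', hc'⟩ := S.exists_cell q (m - 1 - q - S.row (c p)) (by omega)
        have hp' := ihn (m - 1 - S.col p') (by omega) q p' rfl hr'
        have hpp : p' = p := hV p' p (hr'.trans hq.symm) (by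
          show S.row (c p') = S.row (c p)
          omega)
        rw [hpp] at hc'
        omega
      by_contra hne
      obtain ⟨p', hr', hc'⟩ := S.exists_cell (n - S.row (c p)) (S.col p) (by omega)
      have hp' := ihq _ (by omega) p' (by rw [hc']; exact hn) hr'
      have hpp : p' = p := c.injective (S.ext _ _ (by omega) (by rw [hc, hc, hc']))
      rw [hpp] at hr'
      omega

/-- The cell of a forced colour in a column. -/
theorem exists_rev (p : α) : ∃ p', S.row p' = S.forced p ∧ S.col p' = S.col p :=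
  S.exists_cell _ _ (by have := S.lt p; simp only [forced]; omega)

/-- The reversal of every column. -/
def wFun (p : α) : α := (S.exists_rev p).choose

theorem wFun_row (p : α) : S.row (S.wFun p) = S.forced p := (S.exists_rev p).choose_spec.1

theorem wFun_col (p : α) : S.col (S.wFun p) = S.col p := (S.exists_rev p).choose_spec.2

theorem wFun_wFun (p : α) : S.wFun (S.wFun p) = p := by
  refine S.ext _ _ ?_ (by rw [S.wFun_col, S.wFun_col])
  have h1 := S.lt p
  rw [S.wFun_row, forced, S.wFun_col, S.wFun_row, forced]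
  omega

/-- The reversal of every column, as a permutation. -/
def w : Equiv.Perm α := ⟨S.wFun, S.wFun, S.wFun_wFun, S.wFun_wFun⟩

theorem w_mem : S.InC S.w := S.wFun_col

theorem w_inv : S.w⁻¹ = S.w := rfl

theorem rowInj_forced : S.RowInj S.forced := fun p p' hr h => by
  have h1 := S.lt p
  have h2 := S.lt p'
  simp only [forced] at h
  exact S.ext _ _ hr (by omega)

/-- Either the colours are distinct in every row or two letters of one row can be exchanged. -/
theorem exists_swap {V : α → ℕ} (hV : ¬ S.RowInj V) :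
    ∃ p p', p ≠ p' ∧ S.row p = S.row p' ∧ V p = V p' := by
  simp only [RowInj, not_forall] at hV
  obtain ⟨p, p', hr, h, hne⟩ := hV
  exact ⟨p, p', hne, hr, h⟩

theorem swap_keeps {V : α → ℕ} {p p' : α} (h : V p = V p') (q : α) :
    V (Equiv.swap p p' q) = V q := by
  rw [Equiv.swap_apply_def]
  split_ifs with h1 h2
  · rw [h1, h]
  · rw [h2, h]
  · rfl

section Count

variable [Fintype α]

/-- The permutations lying, with their inverse, in the row group times the column group. -/
def both : Finset (Equiv.Perm α) := Finset.univ.filter fun x => S.InRC x ∧ S.InRC x⁻¹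

variable {S}

theorem mem_both {x : Equiv.Perm α} : x ∈ S.both ↔ S.InRC x ∧ S.InRC x⁻¹ := by simp [both]

/-- Exchanging two letters of one row which have one colour keeps membership. -/
theorem swap_mem_both {r c : Equiv.Perm α} (hr : S.InR r) (hc : S.InC c)
    (hx : c⁻¹ * r⁻¹ ∈ S.both) {p p' : α} (hrow : S.row p = S.row p')
    (hcol : S.row (c⁻¹ p) = S.row (c⁻¹ p')) :
    c⁻¹ * (r * Equiv.swap p p')⁻¹ ∈ S.both := by
  have ht : S.InR (Equiv.swap p p') := swap_keeps (V := S.row) hrow
  refine mem_both.2 ⟨?_, ⟨r * Equiv.swap p p', c, hr.mul S ht, hc, by group⟩⟩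
  obtain ⟨r₂, c₂, hr₂, hc₂, h₂⟩ := (mem_both.1 hx).1
  refine ⟨c⁻¹ * (r * Equiv.swap p p')⁻¹ * c₂⁻¹, c₂, fun q => ?_, hc₂, by group⟩
  have h3 : S.row (c⁻¹ (r⁻¹ (c₂⁻¹ q))) = S.row q := by
    have : c⁻¹ * r⁻¹ * c₂⁻¹ = r₂ := by rw [h₂]; group
    calc S.row (c⁻¹ (r⁻¹ (c₂⁻¹ q))) = S.row ((c⁻¹ * r⁻¹ * c₂⁻¹) q) := rfl
      _ = S.row q := by rw [this, hr₂ q]
  simp only [mul_inv_rev, Equiv.swap_inv, Equiv.Perm.mul_apply]
  rw [swap_keeps (V := fun q => S.row (c⁻¹ q)) hcol]
  exact h3

/-- If the colours of the column part are distinct in rows the element is the reversal. -/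
theorem eq_w_of_rowInj {r c : Equiv.Perm α} (hr : S.InR r) (hc : S.InC c)
    (hx : c⁻¹ * r⁻¹ ∈ S.both) (hinj : S.RowInj fun q => S.row (c⁻¹ q)) :
    c⁻¹ * r⁻¹ = S.w := by
  have hf := S.eq_forced c⁻¹ (hc.inv S) hinj
  have hcw : c⁻¹ = S.w := Equiv.ext fun q => S.ext _ _ ((hf q).trans (S.wFun_row q).symm)
    ((hc.inv S q).trans (S.wFun_col q).symm)
  obtain ⟨r₂, c₂, hr₂, hc₂, h₂⟩ := (mem_both.1 hx).1
  have hV : ∀ q, S.row (c₂ q) = S.forced (r⁻¹ q) := fun q => by
    rw [← hr₂ (c₂ q), ← hf (r⁻¹ q)]
    show S.row ((r₂ * c₂) q) = S.row ((c⁻¹ * r⁻¹) q)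
    rw [h₂]
  have hV' : S.RowInj fun q => S.row (c₂ q) := fun q q' hrow h => by
    refine r⁻¹.injective (S.rowInj_forced _ _ ?_ ?_)
    · rw [hr.inv S q, hr.inv S q', hrow]
    · rw [← hV, ← hV]
      exact h
  have hf2 := S.eq_forced c₂ hc₂ hV'
  have hr1 : r⁻¹ = 1 := Equiv.ext fun q =>
    S.rowInj_forced _ _ (hr.inv S q) ((hV q).symm.trans (hf2 q))
  rw [hr1, hcw, mul_one]

/-- **Forced colouring.** Right invariant functions sum to their value at the reversal, modulo two. -/
theorem sum_both {M : Type} [AddCommMonoid M] (h2 : ∀ a : M, a + a = 0) (F : Equiv.Perm α → M)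
    (hF : ∀ x r, S.InR r → F (x * r) = F x) :
    ∑ x ∈ S.both, F x = F S.w := by
  have hw : S.w ∈ S.both := mem_both.2
    ⟨⟨1, S.w, InR.one S, S.w_mem, (one_mul _).symm⟩, ⟨1, S.w, InR.one S, S.w_mem, by
      rw [S.w_inv, one_mul]⟩⟩
  rw [← Finset.add_sum_erase _ _ hw]
  have hdec : ∀ x ∈ S.both, ∃ r c, S.InR r ∧ S.InC c ∧ x = c⁻¹ * r⁻¹ := fun x hx => by
    obtain ⟨r, c, hr, hc, h⟩ := (mem_both.1 hx).2
    exact ⟨r, c, hr, hc, by rw [← mul_inv_rev, ← h, inv_inv]⟩
  have hpair : ∀ c : Equiv.Perm α, ¬ S.RowInj (fun q => S.row (c⁻¹ q)) →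
      ∃ p p', p ≠ p' ∧ S.row p = S.row p' ∧ S.row (c⁻¹ p) = S.row (c⁻¹ p') := fun c h =>
    S.exists_swap h
  have key : ∀ x ∈ S.both.erase S.w, ∃ r c, ∃ h : ¬ S.RowInj (fun q => S.row (c⁻¹ q)),
      S.InR r ∧ S.InC c ∧ x = c⁻¹ * r⁻¹ ∧
        c⁻¹ * (r * Equiv.swap (hpair c h).choose (hpair c h).choose_spec.choose)⁻¹
          ∈ S.both.erase S.w := by
    intro x hx
    obtain ⟨r, c, hr, hc, rfl⟩ := hdec x (Finset.mem_of_mem_erase hx)
    have h : ¬ S.RowInj (fun q => S.row (c⁻¹ q)) := fun h =>
      (Finset.ne_of_mem_erase hx) (eq_w_of_rowInj hr hc (Finset.mem_of_mem_erase hx) h)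
    obtain ⟨h1, h2', h3⟩ := (hpair c h).choose_spec.choose_spec
    refine ⟨r, c, h, hr, hc, rfl, Finset.mem_erase.2 ⟨fun hw' => h ?_,
      swap_mem_both hr hc (Finset.mem_of_mem_erase hx) h2' h3⟩⟩
    have hc' : c = S.w := (S.mul_unique ((hr.mul S (swap_keeps (V := S.row) h2')))
      (InR.one S) hc S.w_mem (by
        rw [one_mul, ← S.w_inv, ← hw']
        group)).2
    intro q q' hq he
    rw [hc', S.w_inv] at he
    exact S.rowInj_forced q q' hq ((S.wFun_row q).symm.trans (he.trans (S.wFun_row q')))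
  choose r c hn hr hc hx hy using key
  let f : ∀ x ∈ S.both.erase S.w, Equiv.Perm α := fun x hx =>
    (c x hx)⁻¹ * (r x hx * Equiv.swap (hpair _ (hn x hx)).choose
      (hpair _ (hn x hx)).choose_spec.choose)⁻¹
  have hzero : ∑ x ∈ S.both.erase S.w, F x = 0 := by
    refine Finset.sum_involution f (fun x hxm => ?_) (fun x hxm _ hfx => ?_)
      (fun x hxm => hy x hxm) (fun x hxm => ?_)
    · have ht : S.InR (Equiv.swap (hpair _ (hn x hxm)).choose
          (hpair _ (hn x hxm)).choose_spec.choose) :=
        swap_keeps (V := S.row) (hpair _ (hn x hxm)).choose_spec.choose_spec.2.1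
      show F x + F (f x hxm) = 0
      conv_lhs => arg 1; rw [hx x hxm]
      rw [hF _ _ ((hr x hxm).inv S), hF _ _ (((hr x hxm).mul S ht).inv S)]
      exact h2 _
    · have h1 := (hpair _ (hn x hxm)).choose_spec.choose_spec.1
      have e := hfx.trans (hx x hxm)
      have e2 := inv_injective (mul_left_cancel e)
      exact h1 (Equiv.swap_eq_one_iff.1 (mul_eq_left.1 e2))
    · have ht : S.InR (Equiv.swap (hpair _ (hn x hxm)).choose
          (hpair _ (hn x hxm)).choose_spec.choose) :=
        swap_keeps (V := S.row) (hpair _ (hn x hxm)).choose_spec.choose_spec.2.1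
      obtain ⟨e1, e2⟩ := S.mul_unique (hr _ (hy x hxm)) ((hr x hxm).mul S ht) (hc _ (hy x hxm))
        (hc x hxm) (by
          have := congrArg (fun z => z⁻¹) ((hx _ (hy x hxm)).symm)
          simp only [mul_inv_rev, inv_inv] at this
          exact this.trans (by simp [f]))
      show f _ (hy x hxm) = x
      simp only [f]
      simp only [e2, e1]
      rw [mul_assoc, Equiv.swap_mul_self, mul_one]
      exact (hx x hxm).symm
  rw [hzero, add_zero]

/-- An element outside row group times column group sends two letters of one row into one column. -/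
theorem exists_swap_of_not_mem {x : Equiv.Perm α} (hx : ¬ S.InRC x) :
    ∃ p p', p ≠ p' ∧ S.row p = S.row p' ∧ S.col (x⁻¹ p) = S.col (x⁻¹ p') := by
  by_contra hno
  have hinj : S.RowInj fun q => S.col (x⁻¹ q) := fun p p' hr h => by
    by_contra hne
    exact hno ⟨p, p', hne, hr, h⟩
  have hle : ∀ q p, S.row p = q → S.row p + S.col (x⁻¹ p) < m := by
    intro q
    induction q using Nat.strong_induction_on with
    | _ q ih =>
      intro p hp
      by_contra hge
      -- the earlier rows take every colour available to them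
      let Γ : {z : α // S.row z < q} → {z : α // S.row z < q} := fun z =>
        ⟨(S.exists_cell _ _ (ih _ z.2 z.1 rfl)).choose,
          by rw [(S.exists_cell _ _ (ih _ z.2 z.1 rfl)).choose_spec.1]; exact z.2⟩
      have hΓr : ∀ z, S.row (Γ z).1 = S.row z.1 := fun z =>
        (S.exists_cell _ _ (ih _ z.2 z.1 rfl)).choose_spec.1
      have hΓc : ∀ z, S.col (Γ z).1 = S.col (x⁻¹ z.1) := fun z =>
        (S.exists_cell _ _ (ih _ z.2 z.1 rfl)).choose_spec.2
      have hΓ : Function.Surjective Γ := Finite.injective_iff_surjective.1 fun z z' h =>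
        Subtype.ext (hinj _ _
          ((hΓr z).symm.trans ((congrArg (fun u => S.row u.1) h).trans (hΓr z')))
          ((hΓc z).symm.trans ((congrArg (fun u => S.col u.1) h).trans (hΓc z'))))
      let A := {b : α // S.col b = S.col (x⁻¹ p)}
      have hb : ∀ b : A, ∃ z : {z : α // S.row z < q}, (Γ z).1 = b.1 := fun b => by
        obtain ⟨z, hz⟩ := hΓ ⟨b.1, by have := S.lt b.1; rw [b.2] at this; omega⟩
        exact ⟨z, congrArg Subtype.val hz⟩
      choose g hg using hb
      have hgr : ∀ b : A, S.row (g b).1 = S.row b.1 := fun b => by rw [← hΓr, hg]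
      let f : A → A := fun b => ⟨x⁻¹ (g b).1, by rw [← hΓc, hg]; exact b.2⟩
      have hf : Function.Surjective f := Finite.injective_iff_surjective.1 fun b b' h => by
        have h' : (g b).1 = (g b').1 := x⁻¹.injective (congrArg Subtype.val h)
        exact Subtype.ext (S.ext _ _ (by rw [← hgr, ← hgr, h']) (b.2.trans b'.2.symm))
      obtain ⟨b, hb⟩ := hf ⟨x⁻¹ p, rfl⟩
      have hbp : (g b).1 = p := x⁻¹.injective (congrArg Subtype.val hb)
      have := (g b).2
      rw [hbp, hp] at this
      exact this.false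
  choose Γ hΓr hΓc using fun p => S.exists_cell _ _ (hle _ p rfl)
  have hinjΓ : Function.Injective Γ := fun p p' h => hinj p p'
    ((hΓr p).symm.trans ((congrArg S.row h).trans (hΓr p')))
    ((hΓc p).symm.trans ((congrArg S.col h).trans (hΓc p')))
  let e : Equiv.Perm α := Equiv.ofBijective Γ
    ⟨hinjΓ, Finite.injective_iff_surjective.1 hinjΓ⟩
  have her : S.InR e := hΓr
  refine hx ⟨e⁻¹, e * x, her.inv S, fun p => ?_, by group⟩
  show S.col (Γ (x p)) = S.col p
  rw [hΓc]
  simp

end Count

end Stair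

end

end P197
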