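import Vale.Agent.P197.Kron
import Vale.Agent.P197.Latin

/-!
# P197: integral consequences of a vanishing Kronecker coefficient for the staircase

With `e` the symmetriser of the staircase, an element killing the tensor square has vanishing
pairing with `x ↦ e (x⁻¹) (e * e) x`; modulo two this weight is the indicator of the set of `x`
lying, with their inverse, in the row group times the column group.
-/

namespace P197

open MonoidAlgebra
open scoped Classical

noncomputable section

/-- Reversal of the group elements. -/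
def rev {k : Type} [CommRing k] {H : Type} [Group H] (x : MonoidAlgebra k H) : MonoidAlgebra k H :=
  mapDomain (·⁻¹) x

section Rev

variable {k : Type} [CommRing k] {H : Type} [Group H]

theorem rev_add (x y : MonoidAlgebra k H) : rev (x + y) = rev x + rev y := mapDomain_add _ _ _

theorem rev_single (x : H) (a : k) : rev (single x a) = single x⁻¹ a := mapDomain_single

theorem rev_smul (a : k) (x : MonoidAlgebra k H) : rev (a • x) = a • rev x := by
  ext i
  simp [rev, coeff_mapDomain]

theorem rev_sum {ι : Type} (s : Finset ι) (f : ι → MonoidAlgebra k H) :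
    rev (∑ i ∈ s, f i) = ∑ i ∈ s, rev (f i) :=
  map_sum (AddMonoidHom.mk' rev rev_add) f s

theorem rev_mul (x y : MonoidAlgebra k H) : rev (x * y) = rev y * rev x := by
  induction x using MonoidAlgebra.induction_on with
  | of g =>
    induction y using MonoidAlgebra.induction_on with
    | of g' => simp [MonoidAlgebra.of_apply, single_mul_single, rev_single]
    | add a b ha hb => rw [mul_add, rev_add, rev_add, add_mul, ha, hb]
    | smul r a ha => rw [mul_smul_comm, rev_smul, rev_smul, smul_mul_assoc, ha]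
  | add a b ha hb => rw [add_mul, rev_add, rev_add, mul_add, ha, hb]
  | smul r a ha => rw [smul_mul_assoc, rev_smul, rev_smul, mul_smul_comm, ha]

theorem coeff_rev (x : MonoidAlgebra k H) (g : H) : (rev x).coeff g = x.coeff g⁻¹ := by
  rw [rev, coeff_mapDomain]
  conv_lhs => rw [← inv_inv g]
  exact Finsupp.mapDomain_apply inv_injective _ _

/-- The coefficient at the identity of a product, as a sum. -/
theorem coeff_mul_one [Fintype H] (x y : MonoidAlgebra k H) :
    (x * y).coeff 1 = ∑ g, x.coeff g * y.coeff g⁻¹ := by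
  rw [coeff_mul_apply_left, Finsupp.sum_fintype _ _ fun g => zero_mul _]
  simp

/-- Over the integers `rev x * x` vanishes only for `x = 0`. -/
theorem eq_zero_of_rev_mul {H : Type} [Group H] [Fintype H] (x : MonoidAlgebra ℤ H)
    (h : rev x * x = 0) : x = 0 := by
  have h1 : (rev x * x).coeff 1 = 0 := by rw [h]; rfl
  simp only [coeff_mul_one, coeff_rev] at h1
  have h2 := (Finset.sum_eq_zero_iff_of_nonneg fun g _ => mul_self_nonneg (x.coeff g⁻¹)).1 h1
  ext g
  simpa using h2 g⁻¹ (Finset.mem_univ _)

end Rev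

variable {N m : ℕ} {lam ν : YoungDiagram}

theorem map_diag (a : MonoidAlgebra ℤ (G N)) :
    mapRingHom (GG N) (Int.castRingHom ℂ) (diag ℤ a)
      = diag ℂ (mapRingHom (G N) (Int.castRingHom ℂ) a) :=
  RingHom.congr_fun (mapRingHom_comp_mapDomainRingHom _ _) a

theorem map_young (k : Type) [CommRing k] (t : Tableau N lam) :
    mapRingHom (G N) (Int.castRingHom k) (young ℤ t) = young k t := by
  simp [young, map_sum]

theorem map_eps (t : Tableau N lam) :
    mapRingHom (GG N) (Int.castRingHom ℂ) (eps ℤ t) = eps ℂ t := by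
  rw [eps, eps, map_mul, ← map_young ℂ t]
  exact congr_arg₂ (· * ·) (RingHom.congr_fun (mapRingHom_comp_mapDomainRingHom _ _) _)
    (RingHom.congr_fun (mapRingHom_comp_mapDomainRingHom _ _) _)

/-- An element kills the tensor square of the Specht module of `t`. -/
def Killed (t : Tableau N lam) (a : MonoidAlgebra ℤ (G N)) : Prop :=
  ∀ X, diag ℤ a * (X * eps ℤ t) = 0

theorem killed_young (t : Tableau N lam) (u : Tableau N ν) (h : kronecker t t u = 0) :
    Killed t (young ℤ u) := fun X => by
  refine map_injective (Int.castRingHom ℂ).toAddMonoidHom Int.cast_injective ?_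
  show mapRingHom (GG N) (Int.castRingHom ℂ) _ = mapRingHom (GG N) (Int.castRingHom ℂ) 0
  rw [map_mul, map_mul, map_diag, map_young, map_eps, map_zero]
  exact kills_of_kronecker_eq_zero t u h _

theorem rev_diag (a : MonoidAlgebra ℤ (G N)) : rev (diag ℤ a) = diag ℤ (rev a) := by
  induction a using MonoidAlgebra.induction_on with
  | of g => simp [MonoidAlgebra.of_apply, rev_single, diag_single, Prod.inv_mk]
  | add a b ha hb => rw [map_add, rev_add, rev_add, map_add, ha, hb]
  | smul r a ha => rw [rev_smul, diag, hom_smul, hom_smul, rev_smul, ← diag, ha]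

theorem Killed.rev {t : Tableau N lam} {a : MonoidAlgebra ℤ (G N)} (h : Killed t a) :
    Killed t (P197.rev a) := fun X => by
  refine eq_zero_of_rev_mul _ ?_
  rw [rev_mul, rev_diag, mul_assoc]
  have hrr : P197.rev (P197.rev a) = a := by ext g; simp [coeff_rev]
  rw [hrr, ← mul_assoc (diag ℤ (P197.rev a)) X, h, mul_zero]

theorem Killed.add {t : Tableau N lam} {a b : MonoidAlgebra ℤ (G N)} (ha : Killed t a)
    (hb : Killed t b) : Killed t (a + b) := fun X => by rw [map_add, add_mul, ha, hb, add_zero]

theorem killed_zero (t : Tableau N lam) : Killed t 0 := fun X => by rw [map_zero, zero_mul]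

theorem Killed.mul {t : Tableau N lam} {a : MonoidAlgebra ℤ (G N)} (ha : Killed t a)
    (p q : MonoidAlgebra ℤ (G N)) : Killed t (p * a * q) := fun X => by
  rw [map_mul, map_mul, mul_assoc, mul_assoc, ← mul_assoc (diag ℤ q), ha, mul_zero]

/-- The rows, summed. -/
def rowSum (t : Tableau N lam) : MonoidAlgebra ℤ (G N) := ∑ r ∈ rowGroup t, single r 1

/-- The columns, summed with signs. -/
def colSum (t : Tableau N lam) : MonoidAlgebra ℤ (G N) :=
  ∑ c ∈ colGroup t, single c (Equiv.Perm.sign c : ℤ)

theorem young_eq (t : Tableau N lam) : young ℤ t = rowSum t * colSum t := by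
  rw [young, rowSum, colSum, Finset.sum_mul_sum]
  simp [single_mul_single]

theorem mem_rowGroup (t : Tableau N lam) (x : G N) :
    x ∈ rowGroup t ↔ ∀ i, rowOf t (x i) = rowOf t i := by simp [rowGroup]

theorem mem_colGroup (t : Tableau N lam) (x : G N) :
    x ∈ colGroup t ↔ ∀ i, colOf t (x i) = colOf t i := by simp [colGroup]

theorem inv_mem_rowGroup {t : Tableau N lam} {x : G N} (h : x ∈ rowGroup t) :
    x⁻¹ ∈ rowGroup t := by
  rw [mem_rowGroup] at h ⊢
  intro i
  simpa using (h (x⁻¹ i)).symm

theorem inv_mem_colGroup {t : Tableau N lam} {x : G N} (h : x ∈ colGroup t) :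
    x⁻¹ ∈ colGroup t := by
  rw [mem_colGroup] at h ⊢
  intro i
  simpa using (h (x⁻¹ i)).symm

theorem rev_rowSum (t : Tableau N lam) : rev (rowSum t) = rowSum t := by
  simp only [rowSum, rev_sum, rev_single]
  exact Finset.sum_nbij' (·⁻¹) (·⁻¹) (fun _ h => inv_mem_rowGroup h)
    (fun _ h => inv_mem_rowGroup h) (fun _ _ => inv_inv _) (fun _ _ => inv_inv _) fun _ _ => rfl

theorem rev_colSum (t : Tableau N lam) : rev (colSum t) = colSum t := by
  simp only [colSum, rev_sum, rev_single]
  exact Finset.sum_nbij' (·⁻¹) (·⁻¹) (fun _ h => inv_mem_colGroup h)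
    (fun _ h => inv_mem_colGroup h) (fun _ _ => inv_inv _) (fun _ _ => inv_inv _)
    fun c _ => by rw [Equiv.Perm.sign_inv]

theorem coeff_pair (a b : MonoidAlgebra ℤ (G N)) :
    (inFst ℤ a * inSnd ℤ b).coeff 1 = a.coeff 1 * b.coeff 1 := by
  induction a using MonoidAlgebra.induction_on with
  | of g =>
    induction b using MonoidAlgebra.induction_on with
    | of g' =>
      by_cases hg : g = 1 <;> by_cases hg' : g' = 1 <;>
        simp [MonoidAlgebra.of_apply, inFst_single, inSnd_single, single_mul_single, hg, hg',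
          Prod.ext_iff, Finsupp.single_apply]
    | add a b ha hb =>
      rw [map_add, mul_add, coeff_add, coeff_add, Finsupp.add_apply, Finsupp.add_apply, ha, hb,
        mul_add]
    | smul r a ha =>
      rw [inSnd, hom_smul, mul_smul_comm, ← inSnd, coeff_smul, coeff_smul, Finsupp.smul_apply,
        Finsupp.smul_apply, ha, smul_eq_mul, smul_eq_mul]
      ring
  | add a a' ha ha' =>
    rw [map_add, add_mul, coeff_add, coeff_add, Finsupp.add_apply, Finsupp.add_apply, ha, ha',
      add_mul]
  | smul r a ha =>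
    rw [inFst, hom_smul, smul_mul_assoc, ← inFst, coeff_smul, coeff_smul, Finsupp.smul_apply,
      Finsupp.smul_apply, ha, smul_eq_mul, smul_eq_mul]
    ring

/-- A killed element pairs to zero with the square weight of the symmetriser. -/
theorem Killed.pairing {t : Tableau N lam} {a : MonoidAlgebra ℤ (G N)} (h : Killed t a) :
    ∑ x, a.coeff x * ((young ℤ t).coeff x⁻¹ * (young ℤ t * young ℤ t).coeff x) = 0 := by
  have h0 := congrArg (fun Z => (inSnd ℤ (rowSum t) * Z).coeff 1) (h (inSnd ℤ (colSum t)))
  simp only [mul_zero, coeff_zero, Finsupp.zero_apply] at h0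
  rw [← h0]
  suffices hlin : ∀ y : MonoidAlgebra ℤ (G N),
      (inSnd ℤ (rowSum t) * (diag ℤ y * (inSnd ℤ (colSum t) * eps ℤ t))).coeff 1
        = ∑ x, y.coeff x * ((young ℤ t).coeff x⁻¹ * (young ℤ t * young ℤ t).coeff x) from
    (hlin a).symm
  intro y
  induction y using MonoidAlgebra.induction_on with
  | of g =>
    have hd : diag ℤ (single g (1 : ℤ)) = inFst ℤ (single g 1) * inSnd ℤ (single g 1) := by
      simp [diag_single, inFst_single, inSnd_single, single_mul_single]
    have hcomb : inSnd ℤ (rowSum t) * (diag ℤ (single g 1) * (inSnd ℤ (colSum t) * eps ℤ t))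
        = inFst ℤ (single g 1 * young ℤ t) *
          inSnd ℤ (rowSum t * (single g 1 * (colSum t * young ℤ t))) := by
      rw [hd, eps, map_mul (inFst ℤ), map_mul (inSnd ℤ), map_mul (inSnd ℤ), map_mul (inSnd ℤ)]
      rw [← mul_assoc (inSnd ℤ (colSum t)), inSnd_comm]
      simp only [mul_assoc]
      rw [← mul_assoc (inSnd ℤ (rowSum t)) (inFst ℤ (single g 1)), inSnd_comm]
      simp only [mul_assoc]
      rw [← mul_assoc (inSnd ℤ (single g 1)) (inFst ℤ (young ℤ t)), inSnd_comm]
      simp only [mul_assoc]
      rw [← mul_assoc (inSnd ℤ (rowSum t)) (inFst ℤ (young ℤ t)), inSnd_comm]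
      simp only [mul_assoc]
    rw [MonoidAlgebra.of_apply, hcomb, coeff_pair, Finset.sum_eq_single g (fun x _ hx => by
      simp [hx]) (fun h => absurd (Finset.mem_univ g) h)]
    have h1 : (single g (1 : ℤ) * young ℤ t).coeff 1 = (young ℤ t).coeff g⁻¹ := by simp
    have h2 : (rowSum t * (single g (1 : ℤ) * (colSum t * young ℤ t))).coeff 1
        = (young ℤ t * young ℤ t).coeff g := by
      have hcyc : ∀ p q : MonoidAlgebra ℤ (G N), (p * q).coeff 1 = (q * p).coeff 1 := fun p q => by
        rw [coeff_mul_one, coeff_mul_one, ← Equiv.sum_comp (Equiv.inv (G N))]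
        simp [mul_comm]
      rw [hcyc, mul_assoc, coeff_single_mul_apply, one_mul, mul_one, ← coeff_rev]
      rw [rev_mul, rev_mul, rev_colSum, rev_rowSum, young_eq, rev_mul, rev_colSum, rev_rowSum]
      simp only [mul_assoc]
    rw [h1, h2]
    simp
  | add p q hp hq => simp [add_mul, mul_add, Finset.sum_add_distrib, hp, hq]
  | smul r p hp =>
    rw [diag, hom_smul, smul_mul_assoc, mul_smul_comm, ← diag, coeff_smul, Finsupp.smul_apply,
      hp, Finset.smul_sum]
    simp only [coeff_smul, Finsupp.smul_apply, smul_eq_mul, mul_assoc]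

/-- A staircase tableau as an arrangement of the letters. -/
def stairOf (t : Tableau N (staircase m)) : Stair (Fin N) m where
  row := rowOf t
  col := colOf t
  lt i := (Finset.mem_filter.1 (t i).2).2
  ext p p' hr hc := t.injective (Subtype.ext (Prod.ext hr hc))
  exists_cell q j h := by
    have hmem : (q, j) ∈ (staircase m).cells :=
      Finset.mem_filter.2 ⟨Finset.mem_product.2 ⟨Finset.mem_range.2 (by omega),
        Finset.mem_range.2 (by omega)⟩, h⟩
    exact ⟨t.symm ⟨(q, j), hmem⟩, by simp [rowOf], by simp [colOf]⟩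

variable (t : Tableau N (staircase m))

theorem row_mem_iff (x : G N) : x ∈ rowGroup t ↔ (stairOf t).InR x := mem_rowGroup t x

theorem col_mem_iff (x : G N) : x ∈ colGroup t ↔ (stairOf t).InC x := mem_colGroup t x

theorem coeff_young_mod_two (x : G N) :
    ((young ℤ t).coeff x : ZMod 2) = if (stairOf t).InRC x then 1 else 0 := by
  have hcast : ∀ c : G N, (((Equiv.Perm.sign c : ℤˣ) : ℤ) : ZMod 2) = 1 := fun c => by
    rcases Int.units_eq_one_or (Equiv.Perm.sign c) with h | h <;> rw [h] <;> decide
  simp only [young, coeff_sum, coeff_single, Finsupp.finsetSum_apply, Int.cast_sum]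
  rw [← Finset.sum_product']
  split_ifs with h
  · obtain ⟨r, c, hr, hc, rfl⟩ := h
    rw [Finset.sum_eq_single (r, c)]
    · simpa using hcast c
    · rintro ⟨r', c'⟩ hmem hne
      obtain ⟨hr', hc'⟩ := Finset.mem_product.1 hmem
      rw [Finsupp.single_apply, if_neg fun he => hne ?_, Int.cast_zero]
      obtain ⟨e1, e2⟩ := (stairOf t).mul_unique ((row_mem_iff t r').1 hr') hr
        ((col_mem_iff t c').1 hc') hc he
      exact Prod.ext e1 e2
    · exact fun hn => absurd (Finset.mem_product.2
        ⟨(row_mem_iff t r).2 hr, (col_mem_iff t c).2 hc⟩) hn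
  · refine Finset.sum_eq_zero fun p hp => ?_
    obtain ⟨hr', hc'⟩ := Finset.mem_product.1 hp
    rw [Finsupp.single_apply, if_neg fun he =>
      h ⟨p.1, p.2, (row_mem_iff t _).1 hr', (col_mem_iff t _).1 hc', he.symm⟩, Int.cast_zero]

theorem single_mul_rowSum {r : G N} (hr : r ∈ rowGroup t) :
    single r (1 : ℤ) * rowSum t = rowSum t := by
  simp only [rowSum, Finset.mul_sum, single_mul_single, one_mul]
  refine Finset.sum_nbij' (r * ·) (r⁻¹ * ·) (fun x hx => ?_) (fun x hx => ?_)
    (fun x _ => inv_mul_cancel_left r x) (fun x _ => mul_inv_cancel_left r x) fun _ _ => rfl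
  · exact (row_mem_iff t _).2 (((row_mem_iff t r).1 hr).mul _ ((row_mem_iff t x).1 hx))
  · exact (row_mem_iff t _).2
      (((row_mem_iff t _).1 (inv_mem_rowGroup hr)).mul _ ((row_mem_iff t x).1 hx))

theorem colSum_mul_single {c : G N} (hc : c ∈ colGroup t) :
    colSum t * single c (1 : ℤ) = (Equiv.Perm.sign c : ℤ) • colSum t := by
  simp only [colSum, Finset.sum_mul, single_mul_single, Finset.smul_sum, smul_single]
  refine Finset.sum_nbij' (· * c) (· * c⁻¹) (fun x hx => ?_) (fun x hx => ?_)
    (fun x _ => mul_inv_cancel_right x c) (fun x _ => inv_mul_cancel_right x c) fun x _ => ?_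
  · exact (col_mem_iff t _).2 (((col_mem_iff t x).1 hx).mul _ ((col_mem_iff t c).1 hc))
  · exact (col_mem_iff t _).2
      (((col_mem_iff t x).1 hx).mul _ ((col_mem_iff t _).1 (inv_mem_colGroup hc)))
  · congr 1
    rw [map_mul]
    rcases Int.units_eq_one_or (Equiv.Perm.sign c) with h | h <;> simp [h]

theorem coeff_sq_row {r : G N} (hr : r ∈ rowGroup t) (x : G N) :
    (young ℤ t * young ℤ t).coeff (r * x) = (young ℤ t * young ℤ t).coeff x := by
  have h : single r (1 : ℤ) * (young ℤ t * young ℤ t) = young ℤ t * young ℤ t := by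
    rw [young_eq, ← mul_assoc, ← mul_assoc (single r (1 : ℤ)), single_mul_rowSum t hr]
  conv_lhs => rw [← h]
  simp

theorem coeff_sq_col {c : G N} (hc : c ∈ colGroup t) (x : G N) :
    (young ℤ t * young ℤ t).coeff (x * c)
      = (Equiv.Perm.sign c : ℤ) * (young ℤ t * young ℤ t).coeff x := by
  have h : young ℤ t * young ℤ t * single c (1 : ℤ)
      = (Equiv.Perm.sign c : ℤ) • (young ℤ t * young ℤ t) := by
    rw [young_eq]
    simp only [mul_assoc]
    rw [colSum_mul_single t hc, mul_smul_comm, mul_smul_comm, mul_smul_comm]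
  have h2 := congrArg (fun Z => Z.coeff (x * c)) h
  simp only [coeff_mul_single_apply, mul_inv_cancel_right, mul_one, coeff_smul,
    Finsupp.smul_apply, smul_eq_mul] at h2
  rw [h2, ← mul_assoc, Int.units_coe_mul_self, one_mul]

theorem swap_fix {V : Fin N → ℕ} {p p' : Fin N} (h : V p = V p') (q : Fin N) :
    V (Equiv.swap p p' q) = V q := by
  rw [Equiv.swap_apply_def]
  split_ifs with h1 h2
  · rw [h1, h]
  · rw [h2, h]
  · rfl

theorem ite_prod (p q : Prop) [hp : Decidable p] [hq : Decidable q] [Decidable (p ∧ q)] :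
    (if p then (1 : ZMod 2) else 0) * (if q then 1 else 0) = if p ∧ q then 1 else 0 := by
  cases hp with
  | isTrue h => cases hq with
    | isTrue h' => rw [if_pos h, if_pos h', if_pos ⟨h, h'⟩, one_mul]
    | isFalse h' => rw [if_pos h, if_neg h', if_neg fun hh => h' hh.2, one_mul]
  | isFalse h => rw [if_neg h, zero_mul, if_neg fun hh : p ∧ q => h hh.1]

theorem coeff_sq_one : ((young ℤ t * young ℤ t).coeff 1 : ZMod 2) = 1 := by
  have h := (stairOf t).sum_both (fun a : ZMod 2 => by revert a; decide) (fun _ => (1 : ZMod 2))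
    fun _ _ _ => rfl
  rw [Stair.both, Finset.sum_filter] at h
  refine Eq.trans ?_ h
  rw [coeff_mul_one, Int.cast_sum]
  refine Finset.sum_congr (Finset.ext fun x => by simp only [Finset.mem_univ]) fun x _ => ?_
  rw [Int.cast_mul, coeff_young_mod_two, coeff_young_mod_two]
  exact (ite_prod _ _).trans (if_congr Iff.rfl rfl rfl)

theorem coeff_sq_mod_two (x : G N) : ((young ℤ t * young ℤ t).coeff x : ZMod 2)
    = if (stairOf t).InRC x then 1 else 0 := by
  split_ifs with h
  · obtain ⟨r, c, hr, hc, rfl⟩ := h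
    rw [coeff_sq_row t ((row_mem_iff t r).2 hr), ← one_mul c,
      coeff_sq_col t ((col_mem_iff t c).2 hc), Int.cast_mul, coeff_sq_one]
    have hs : (((Equiv.Perm.sign c : ℤˣ) : ℤ) : ZMod 2) = 1 := by
      rcases Int.units_eq_one_or (Equiv.Perm.sign c) with h | h <;> rw [h] <;> decide
    rw [hs, one_mul]
  · obtain ⟨p, p', hne, hrow, hcol⟩ := (stairOf t).exists_swap_of_not_mem h
    have ht : Equiv.swap p p' ∈ rowGroup t :=
      (row_mem_iff t _).2 fun q => swap_fix (V := (stairOf t).row) hrow q
    have hc : Equiv.swap (x⁻¹ p) (x⁻¹ p') ∈ colGroup t :=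
      (col_mem_iff t _).2 fun q => swap_fix (V := (stairOf t).col) hcol q
    have he : Equiv.swap p p' * x = x * Equiv.swap (x⁻¹ p) (x⁻¹ p') := by
      rw [Equiv.swap_mul_eq_mul_swap]
    have h1 := coeff_sq_row t ht x
    rw [he, coeff_sq_col t hc,
      Equiv.Perm.sign_swap fun h => hne (x⁻¹.injective h)] at h1
    have h0 : (young ℤ t * young ℤ t).coeff x = 0 := by
      simp only [Units.val_neg, Units.val_one] at h1
      omega
    rw [h0, Int.cast_zero]

/-- Killed elements have even coefficient sum over the set of the forced colouring. -/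
theorem Killed.even_sum {a : MonoidAlgebra ℤ (G N)} (h : Killed t a) :
    ∑ x ∈ (stairOf t).both, (a.coeff x : ZMod 2) = 0 := by
  have h0 := congrArg (fun v : ℤ => (v : ZMod 2)) h.pairing
  simp only [Int.cast_sum, Int.cast_mul, coeff_young_mod_two, coeff_sq_mod_two,
    Int.cast_zero] at h0
  rw [← h0, Stair.both, Finset.sum_filter]
  refine Finset.sum_congr (Finset.ext fun x => by simp only [Finset.mem_univ]) fun x _ => ?_
  rw [mul_comm (if (stairOf t).InRC x⁻¹ then (1 : ZMod 2) else 0)]
  refine Eq.trans ?_ (congrArg (fun v => (a.coeff x : ZMod 2) * v) (ite_prod _ _).symm)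
  rw [mul_ite, mul_one, mul_zero]

end

end P197
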