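import Vale.Agent.P197.Defs

/-!
# P197: a vanishing Kronecker coefficient makes the Young symmetriser kill the tensor square
-/

namespace P197

open MonoidAlgebra TensorProduct
open scoped Classical

noncomputable section

/-- Pairs of permutations. -/
abbrev GG (N : ℕ) : Type := G N × G N

variable {N : ℕ} {lam ν : YoungDiagram} (k : Type) [CommRing k]

/-- The diagonal. -/
def diag : MonoidAlgebra k (G N) →+* MonoidAlgebra k (GG N) :=
  mapDomainRingHom k ((MonoidHom.id (G N)).prod (MonoidHom.id (G N)))

/-- The first factor. -/
def inFst : MonoidAlgebra k (G N) →+* MonoidAlgebra k (GG N) :=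
  mapDomainRingHom k (MonoidHom.inl (G N) (G N))

/-- The second factor. -/
def inSnd : MonoidAlgebra k (G N) →+* MonoidAlgebra k (GG N) :=
  mapDomainRingHom k (MonoidHom.inr (G N) (G N))

/-- The square of the symmetriser in the group algebra of pairs. -/
def eps (t : Tableau N lam) : MonoidAlgebra k (GG N) :=
  inFst k (young k t) * inSnd k (young k t)

variable {k}

theorem diag_single (x : G N) (a : k) : diag k (single x a) = single (x, x) a :=
  mapDomain_single

theorem inFst_single (x : G N) (a : k) : inFst k (single x a) = single (x, 1) a :=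
  mapDomain_single

theorem inSnd_single (x : G N) (a : k) : inSnd k (single x a) = single (1, x) a :=
  mapDomain_single

theorem hom_smul {H : Type} [Group H] (f : G N →* H) (r : k) (a : MonoidAlgebra k (G N)) :
    mapDomainRingHom k f (r • a) = r • mapDomainRingHom k f a :=
  map_smul (mapDomainAlgHom k k f) r a

theorem inSnd_comm (a b : MonoidAlgebra k (G N)) :
    inSnd k b * inFst k a = inFst k a * inSnd k b := by
  induction a using MonoidAlgebra.induction_on with
  | of x =>
    induction b using MonoidAlgebra.induction_on with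
    | of y => simp [MonoidAlgebra.of_apply, inFst_single, inSnd_single, single_mul_single]
    | add b b' hb hb' => rw [map_add, add_mul, mul_add, hb, hb']
    | smul r b hb => rw [inSnd, hom_smul, smul_mul_assoc, mul_smul_comm, ← inSnd, hb]
  | add a a' ha ha' => rw [map_add, mul_add, add_mul, ha, ha']
  | smul r a ha => rw [inFst, hom_smul, smul_mul_assoc, mul_smul_comm, ← inFst, ha]

/-- The multiplication map from the tensor square of the Specht module. -/
def toPairs (t : Tableau N lam) : specht t ⊗[ℂ] specht t →ₗ[ℂ] MonoidAlgebra ℂ (GG N) :=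
  TensorProduct.lift
    (LinearMap.mk₂ ℂ (fun v v' => inFst ℂ v.1 * inSnd ℂ v'.1)
      (fun a b c => by simp [add_mul])
      (fun r a c => by
        show inFst ℂ (r • a.1) * _ = _
        rw [inFst, hom_smul, smul_mul_assoc])
      (fun a b c => by simp [mul_add])
      (fun r a c => by
        show _ * inSnd ℂ (r • c.1) = _
        rw [inSnd, hom_smul, mul_smul_comm]))

theorem toPairs_tmul (t : Tableau N lam) (v v' : specht t) :
    toPairs t (v ⊗ₜ v') = inFst ℂ v.1 * inSnd ℂ v'.1 :=
  TensorProduct.lift.tmul _ _

/-- The tensor square of the Specht representation. -/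
abbrev sqRep (t : Tableau N lam) : Representation ℂ (G N) (specht t ⊗[ℂ] specht t) :=
  (spechtRep t).tprod (spechtRep t)

theorem toPairs_rep (t : Tableau N lam) (g : G N) (z : specht t ⊗[ℂ] specht t) :
    toPairs t (sqRep t g z) = diag ℂ (single g 1) * toPairs t z := by
  induction z using TensorProduct.induction_on with
  | zero => simp
  | add a b ha hb => rw [map_add, map_add, map_add, ha, hb, mul_add]
  | tmul v v' =>
    rw [show sqRep t g (v ⊗ₜ v') = spechtRep t g v ⊗ₜ spechtRep t g v' from rfl, toPairs_tmul,
      toPairs_tmul]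
    show inFst ℂ (single g 1 * v.1) * inSnd ℂ (single g 1 * v'.1) = _
    rw [map_mul, map_mul, mul_assoc, ← mul_assoc (inFst ℂ v.1), ← inSnd_comm, mul_assoc,
      ← mul_assoc (inFst ℂ (single g 1)), inFst_single, inSnd_single, single_mul_single,
      diag_single]
    simp

theorem toPairs_act (t : Tableau N lam) (a : MonoidAlgebra ℂ (G N))
    (z : specht t ⊗[ℂ] specht t) :
    toPairs t ((sqRep t).asAlgebraHom a z) = diag ℂ a * toPairs t z := by
  induction a using MonoidAlgebra.induction_on with
  | of g => rw [MonoidAlgebra.of_apply, Representation.asAlgebraHom_single_one, toPairs_rep]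
  | add a b ha hb => rw [map_add, map_add, LinearMap.add_apply, map_add, ha, hb, add_mul]
  | smul r a ha =>
    rw [map_smul, LinearMap.smul_apply, map_smul, ha, diag, hom_smul, smul_mul_assoc]

/-- The linear maps from the Specht module of `u` to the tensor product of those of `t` and `s`
commuting with the symmetric group. -/
def kroneckerHom {μ : YoungDiagram} (t : Tableau N lam) (s : Tableau N μ) (u : Tableau N ν) :
    Submodule ℂ (specht u →ₗ[ℂ] specht t ⊗[ℂ] specht s) :=
  equivariantMaps (spechtRep u) ((spechtRep t).tprod (spechtRep s))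

/-- The map of Specht modules given by a vector of the tensor square. -/
def homOf (t : Tableau N lam) (u : Tableau N ν) (z : specht t ⊗[ℂ] specht t) :
    specht u →ₗ[ℂ] specht t ⊗[ℂ] specht t where
  toFun w := (sqRep t).asAlgebraHom w.1 z
  map_add' a b := by rw [Submodule.coe_add, map_add, LinearMap.add_apply]
  map_smul' r a := by rw [Submodule.coe_smul, map_smul, LinearMap.smul_apply]; rfl

theorem homOf_mem (t : Tableau N lam) (u : Tableau N ν) (z : specht t ⊗[ℂ] specht t) :
    homOf t u z ∈ kroneckerHom t t u := fun g v => by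
  show (sqRep t).asAlgebraHom (MonoidAlgebra.of ℂ (G N) g * v.1) z = sqRep t g _
  rw [map_mul, Module.End.mul_apply, MonoidAlgebra.of_apply,
    Representation.asAlgebraHom_single_one]
  rfl

/-- A vanishing Kronecker coefficient leaves no equivariant map. -/
theorem kroneckerHom_eq_bot (t : Tableau N lam) (u : Tableau N ν) (h : kronecker t t u = 0) :
    kroneckerHom t t u = ⊥ := by
  let B := (Module.finBasis ℂ (specht u)).linearMap
    ((Module.finBasis ℂ (specht t)).tensorProduct (Module.finBasis ℂ (specht t)))
  let e := B.equivFun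
  have h' : Module.finrank ℂ ((kroneckerHom t t u).map e.toLinearMap) = 0 := by
    rw [← (Submodule.equivMapOfInjective e.toLinearMap e.injective
      (kroneckerHom t t u)).finrank_eq]
    exact h
  exact (Submodule.map_eq_bot_iff (e := e)).1 (Submodule.finrank_eq_zero.1 h')

/-- A vanishing Kronecker coefficient makes the symmetriser kill the tensor square. -/
theorem kills_of_kronecker_eq_zero (t : Tableau N lam) (u : Tableau N ν)
    (h : kronecker t t u = 0) (X : MonoidAlgebra ℂ (GG N)) :
    diag ℂ (young ℂ u) * (X * eps ℂ t) = 0 := by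
  have hbot : kroneckerHom t t u = ⊥ := kroneckerHom_eq_bot t u h
  have hz : ∀ z, diag ℂ (young ℂ u) * toPairs t z = 0 := fun z => by
    have h0 : homOf t u z = 0 := (Submodule.mem_bot ℂ).1 (hbot ▸ homOf_mem t u z)
    have h1 : (sqRep t).asAlgebraHom (young ℂ u) z = 0 :=
      LinearMap.congr_fun h0 ⟨young ℂ u, 1, one_mul _⟩
    rw [← toPairs_act, h1, map_zero]
  induction X using MonoidAlgebra.induction_on with
  | of x =>
    have := hz (⟨single x.1 1 * young ℂ t, _, rfl⟩ ⊗ₜ ⟨single x.2 1 * young ℂ t, _, rfl⟩)
    rw [toPairs_tmul] at this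
    rw [← this]
    refine congrArg _ ?_
    show single x (1 : ℂ) * (inFst ℂ (young ℂ t) * inSnd ℂ (young ℂ t)) =
      inFst ℂ (single x.1 1 * young ℂ t) * inSnd ℂ (single x.2 1 * young ℂ t)
    calc single x (1 : ℂ) * (inFst ℂ (young ℂ t) * inSnd ℂ (young ℂ t))
        = inFst ℂ (single x.1 1) * inSnd ℂ (single x.2 1) *
            (inFst ℂ (young ℂ t) * inSnd ℂ (young ℂ t)) := by
          simp [inFst_single, inSnd_single, single_mul_single]
      _ = _ := by
          rw [map_mul, map_mul, mul_assoc, ← mul_assoc (inSnd ℂ (single x.2 1)), inSnd_comm]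
          simp only [mul_assoc]
  | add a b ha hb => rw [add_mul, mul_add, ha, hb, add_zero]
  | smul r a ha => rw [smul_mul_assoc, mul_smul_comm, ha, smul_zero]

end

end P197
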