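import Vale.Agent.P197.Avail

/-!
# P197: diagrams with a long first row or column

Such a diagram of the size of the staircase of `m + 1` rows reduces to the staircase of `m` rows.
-/

namespace P197

open scoped Classical

noncomputable section

/-- The arrangement of the cells of the staircase itself. -/
def cellStair (m : ℕ) : Stair (staircase m).cells m where
  row c := c.1.1
  col c := c.1.2
  lt c := (Finset.mem_filter.1 c.2).2
  ext c c' hr hc := Subtype.ext (Prod.ext hr hc)
  exists_cell q j h := ⟨⟨(q, j), Finset.mem_filter.2 ⟨Finset.mem_product.2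
    ⟨Finset.mem_range.2 (by omega), Finset.mem_range.2 (by omega)⟩, h⟩⟩, rfl, rfl⟩

/-- Where the shortened first column is inserted. -/
def slot (ν : YoungDiagram) (k : ℕ) : ℕ :=
  ((Finset.Icc 1 (ν.rowLen 0)).filter fun j => k < ν.colLen j).card

/-- The lengths of the columns after `k` cells of the first column are removed, sorted. -/
def cutLen (ν : YoungDiagram) (k j : ℕ) : ℕ :=
  if j < slot ν (ν.colLen 0 - k) then ν.colLen (j + 1)
  else if j = slot ν (ν.colLen 0 - k) then ν.colLen 0 - k else ν.colLen j

theorem slot_iff (ν : YoungDiagram) (k j : ℕ) (hj : 1 ≤ j) :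
    k < ν.colLen j ↔ j ≤ slot ν k := by
  have hrow : ∀ j, k < ν.colLen j → j ≤ ν.rowLen 0 := fun j h => by
    have : (0, j) ∈ ν := YoungDiagram.mem_iff_lt_colLen.2 (by omega)
    exact (YoungDiagram.mem_iff_lt_rowLen.1 this).le
  constructor
  · intro h
    have hsub : Finset.Icc 1 j ⊆ (Finset.Icc 1 (ν.rowLen 0)).filter fun i => k < ν.colLen i :=
      fun i hi => by
        obtain ⟨h1, h2⟩ := Finset.mem_Icc.1 hi
        have hk : k < ν.colLen i := lt_of_lt_of_le h (ν.colLen_anti i j h2)
        exact Finset.mem_filter.2 ⟨Finset.mem_Icc.2 ⟨h1, hrow i hk⟩, hk⟩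
    simpa [slot] using Finset.card_le_card hsub
  · intro h
    by_contra hn
    have hsub : ((Finset.Icc 1 (ν.rowLen 0)).filter fun i => k < ν.colLen i)
        ⊆ Finset.Icc 1 (j - 1) := fun i hi => by
      obtain ⟨hi1, hi2⟩ := Finset.mem_filter.1 hi
      refine Finset.mem_Icc.2 ⟨(Finset.mem_Icc.1 hi1).1, ?_⟩
      by_contra hlt
      have := ν.colLen_anti j i (by omega)
      omega
    have := Finset.card_le_card hsub
    simp [slot] at h this
    omega

theorem cutLen_anti (ν : YoungDiagram) (k : ℕ) {a b : ℕ} (hab : a ≤ b) :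
    cutLen ν k b ≤ cutLen ν k a := by
  have h1 := slot_iff ν (ν.colLen 0 - k)
  unfold cutLen
  split_ifs <;> try omega
  all_goals first
    | exact ν.colLen_anti _ _ (by omega)
    | (by_contra hlt; have := (h1 b (by omega)).1 (by omega); omega)
    | (have := (h1 (a + 1) (by omega)).2 (by omega); omega)

/-- The diagram with `k` cells of the first column removed, columns sorted. -/
def cut (ν : YoungDiagram) (k : ℕ) : YoungDiagram where
  cells := (Finset.range (ν.colLen 0 + 1) ×ˢ Finset.range (ν.rowLen 0 + 1)).filter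
    fun c => c.1 < cutLen ν k c.2
  isLowerSet := by
    rintro ⟨a, b⟩ ⟨a', b'⟩ ⟨ha, hb⟩ h
    change a' ≤ a at ha
    change b' ≤ b at hb
    simp only [Finset.coe_filter, Finset.mem_product, Finset.mem_range, Set.mem_ofPred_eq] at h ⊢
    have := cutLen_anti ν k hb
    omega

/-- The permutation of the columns: the first one goes to its slot. -/
def moveCol (p j : ℕ) : ℕ := if j = 0 then p else if j ≤ p then j - 1 else j

theorem moveCol_injective (p : ℕ) : Function.Injective (moveCol p) := fun a b h => by
  unfold moveCol at h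
  split_ifs at h <;> omega

theorem cut_image (ν : YoungDiagram) (k : ℕ) (hk : k ≤ ν.colLen 0) :
    (ν.cells \ ((Finset.Ico (ν.colLen 0 - k) (ν.colLen 0)) ×ˢ {0})).image
        (fun c => (c.1, moveCol (slot ν (ν.colLen 0 - k)) c.2)) = (cut ν k).cells := by
  have hslot : slot ν (ν.colLen 0 - k) ≤ ν.rowLen 0 := by
    refine (Finset.card_filter_le _ _).trans ?_
    simp
  ext ⟨a, b⟩
  simp only [Finset.mem_image, Finset.mem_sdiff, Finset.mem_product, Finset.mem_Ico,
    Finset.mem_singleton, YoungDiagram.mem_cells, cut, Finset.mem_filter, Finset.mem_range,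
    Prod.exists, Prod.mk.injEq]
  constructor
  · rintro ⟨a', j, ⟨hmem, hE⟩, rfl, rfl⟩
    have hc := YoungDiagram.mem_iff_lt_colLen.1 hmem
    have hr := YoungDiagram.mem_iff_lt_rowLen.1 (ν.up_left_mem (Nat.zero_le _) le_rfl hmem)
    have h0 := ν.colLen_anti 0 j (Nat.zero_le _)
    unfold cutLen moveCol
    rcases Nat.eq_zero_or_pos j with rfl | hj
    · simp
      omega
    · rw [if_neg (by omega : ¬ j = 0)]
      by_cases hjp : j ≤ slot ν (ν.colLen 0 - k)
      · rw [if_pos hjp, if_pos (by omega), Nat.sub_add_cancel hj]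
        omega
      · rw [if_neg hjp, if_neg (by omega), if_neg (by omega)]
        omega
  · rintro ⟨-, h⟩
    unfold cutLen at h
    unfold moveCol
    by_cases hb : b < slot ν (ν.colLen 0 - k)
    · rw [if_pos hb] at h
      exact ⟨a, b + 1, ⟨YoungDiagram.mem_iff_lt_colLen.2 h, fun hh => by omega⟩, rfl, by
        rw [if_neg (by omega), if_pos (by omega)]; omega⟩
    · rw [if_neg hb] at h
      by_cases hb' : b = slot ν (ν.colLen 0 - k)
      · rw [if_pos hb'] at h
        exact ⟨a, 0, ⟨YoungDiagram.mem_iff_lt_colLen.2 (by omega), fun hh => by omega⟩, rfl, by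
          simp [hb']⟩
      · rw [if_neg hb'] at h
        exact ⟨a, b, ⟨YoungDiagram.mem_iff_lt_colLen.2 h, fun hh => by omega⟩, rfl, by
          rw [if_neg (by omega), if_neg (by omega)]⟩

/-- A diagram with a row or column of at least `m + 1` cells has an odd placement if all the
diagrams of the smaller staircase have. -/
theorem odd'_long {m : ℕ} (ih : ∀ ν : YoungDiagram, ν.card = m * (m + 1) / 2 →
    ∀ {α : Type} [Fintype α] (S : Stair α m), Odd' S ν.cells)
    {ν : YoungDiagram} (hν : ν.card = (m + 1) * (m + 1 + 1) / 2)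
    (h : m + 1 ≤ ν.colLen 0 ∨ m + 1 ≤ ν.rowLen 0) {α : Type} [Fintype α] (S : Stair α (m + 1)) :
    Odd' S ν.cells := by
  have hcol : ∀ ν : YoungDiagram, ν.card = (m + 1) * (m + 1 + 1) / 2 → m + 1 ≤ ν.colLen 0 →
      ∀ {α : Type} [Fintype α] (S : Stair α (m + 1)), Odd' S ν.cells := by
    intro ν hν hc α _ S
    let E : Finset (ℕ × ℕ) :=
      (Finset.Ico (ν.colLen 0 - (m + 1)) (ν.colLen 0)) ×ˢ {0}
    have hED : E ⊆ ν.cells := fun c hc' => by
      obtain ⟨h1, h2⟩ := Finset.mem_product.1 hc'
      obtain ⟨a, b⟩ := c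
      obtain rfl : b = 0 := Finset.mem_singleton.1 h2
      exact YoungDiagram.mem_iff_lt_colLen.2 (Finset.mem_Ico.1 h1).2
    have hE : E.card = m + 1 := by simp [E]; omega
    refine Odd'.step hED (fun c hc' => Finset.mem_singleton.1 (Finset.mem_product.1 hc').2) hE ?_
    let p := slot ν (ν.colLen 0 - (m + 1))
    have hcard : (cut ν (m + 1)).card = m * (m + 1) / 2 := by
      show (cut ν (m + 1)).cells.card = _
      rw [← cut_image ν (m + 1) hc, Finset.card_image_of_injective _ fun c c' h => Prod.ext
        (Prod.mk.inj h).1 (moveCol_injective p (Prod.mk.inj h).2),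
        Finset.card_sdiff_of_subset hED, hE, show ν.cells.card = _ from hν]
      have h1 : (m + 1) * (m + 1 + 1) = m * (m + 1) + 2 * (m + 1) := by ring
      rw [h1, Nat.add_mul_div_left _ _ (by norm_num : (0:ℕ) < 2)]
      omega
    have h := ih (cut ν (m + 1)) hcard S.low
    rw [← cut_image ν (m + 1) hc] at h
    obtain ⟨V, T, h⟩ := h
    -- undo the permutation of columns
    let ginv : ℕ → ℕ := fun b => if b < p then b + 1 else if b = p then 0 else b
    refine ⟨V, ginv ∘ T, Eq.trans ?_ h⟩
    refine Finset.sum_congr rfl fun x _ => if_congr ?_ rfl rfl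
    have hg : ∀ b, moveCol p (ginv b) = b := fun b => by
      simp only [ginv]
      by_cases h1 : b < p
      · rw [if_pos h1, moveCol, if_neg (by omega), if_pos (by omega)]
        omega
      · rw [if_neg h1]
        by_cases h2 : b = p
        · rw [if_pos h2, moveCol, if_pos rfl, h2]
        · rw [if_neg h2, moveCol, if_neg (by omega), if_neg (by omega)]
    have hgi : ∀ j, ginv (moveCol p j) = j := fun j => by
      simp only [moveCol, ginv]; split_ifs <;> omega
    have e : T = moveCol p ∘ (ginv ∘ T) := funext fun q => (hg (T q)).symm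
    conv_rhs => rw [e]
    exact (fills_image_iff Function.injective_id (moveCol_injective p) (ν.cells \ E) (V ∘ x)
      (ginv ∘ T)).symm
  rcases h with h | h
  · exact hcol ν hν h S
  · have ht : ν.transpose.card = ν.card := by
      show ν.transpose.cells.card = ν.cells.card
      simp [YoungDiagram.transpose]
    have h' := (hcol ν.transpose (ht.trans hν) (by simpa using h) S).swap
    have e : ν.transpose.cells.image Prod.swap = ν.cells := by
      ext c
      simp [YoungDiagram.transpose]
      exact ⟨fun ⟨a, b, hm, he⟩ => he ▸ hm, fun hm => ⟨c.2, c.1, hm, rfl⟩⟩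
    rwa [e] at h'

end

end P197
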