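import Vale.Agent.P197.Latin

/-!
# P197: removing the first row of a staircase

Functions invariant under the permutations of the first row alone sum over the forced set to a sum
over the forced set of the staircase below the first row.
-/

namespace P197

open scoped Classical

noncomputable section

namespace Stair

variable {α : Type} {m : ℕ} (S : Stair α (m + 1))

/-- The letters below the first row. -/
abbrev Low : Type := {p : α // ¬ S.row p = 0}

/-- The staircase below the first row. -/
def low : Stair S.Low m where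
  row p := S.row p.1 - 1
  col p := S.col p.1
  lt p := by have := S.lt p.1; have := p.2; omega
  ext p p' hr hc := Subtype.ext (S.ext _ _ (by have := p.2; have := p'.2; omega) hc)
  exists_cell q j h := by
    obtain ⟨p, hr, hc⟩ := S.exists_cell (q + 1) j (by omega)
    exact ⟨⟨p, by omega⟩, by show S.row p - 1 = q; omega, hc⟩

theorem exists_shift (p : α) : ∃ p', S.col p' = S.col p ∧
    S.row p' = if S.row p = 0 then m - S.col p else S.row p - 1 := by
  have hp := S.lt p
  obtain ⟨p', hr, hc⟩ := S.exists_cell (if S.row p = 0 then m - S.col p else S.row p - 1) (S.col p)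
    (by split_ifs <;> omega)
  exact ⟨p', hc, hr⟩

/-- The cyclic shift of every column. -/
def shiftFun (p : α) : α := (S.exists_shift p).choose

theorem shiftFun_col (p : α) : S.col (S.shiftFun p) = S.col p := (S.exists_shift p).choose_spec.1

theorem shiftFun_top {p : α} (h : S.row p = 0) : S.row (S.shiftFun p) = m - S.col p :=
  (S.exists_shift p).choose_spec.2.trans (if_pos h)

theorem shiftFun_low {p : α} (h : ¬ S.row p = 0) : S.row (S.shiftFun p) = S.row p - 1 :=
  (S.exists_shift p).choose_spec.2.trans (if_neg h)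

theorem shiftFun_injective : Function.Injective S.shiftFun := fun p p' h => by
  have hc : S.col p = S.col p' := by rw [← S.shiftFun_col p, h, S.shiftFun_col]
  refine S.ext _ _ ?_ hc
  have h1 := S.lt p
  have h2 := S.lt p'
  have hr : S.row (S.shiftFun p) = S.row (S.shiftFun p') := congrArg S.row h
  by_cases a : S.row p = 0 <;> by_cases a' : S.row p' = 0
  · omega
  · rw [S.shiftFun_top a, S.shiftFun_low a'] at hr; omega
  · rw [S.shiftFun_low a, S.shiftFun_top a'] at hr; omega
  · rw [S.shiftFun_low a, S.shiftFun_low a'] at hr; omega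

variable [Fintype α]

set_option linter.unusedSectionVars false

/-- The cyclic shift, as a permutation. -/
def shift : Equiv.Perm α := Equiv.ofBijective S.shiftFun
  ⟨S.shiftFun_injective, Finite.injective_iff_surjective.1 S.shiftFun_injective⟩

theorem shift_mem : S.InC S.shift := S.shiftFun_col

/-- Colours distinct in the first row are forced there. -/
theorem top_forced (c : Equiv.Perm α) (hc : S.InC c)
    (h0 : ∀ p p', S.row p = 0 → S.row p' = 0 → S.row (c p) = S.row (c p') → p = p') :
    ∀ p, S.row p = 0 → S.row (c p) = m - S.col p := by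
  suffices h : ∀ n p, m - S.col p = n → S.row p = 0 → S.row (c p) = n from fun p hp =>
    h _ p rfl hp
  intro n
  induction n using Nat.strong_induction_on with
  | _ n ih =>
    intro p hn hp
    have h1 := S.lt p
    have h2 := S.lt (c p)
    rw [hc p] at h2
    by_contra hne
    obtain ⟨p', hr', hc'⟩ := S.exists_cell 0 (m - S.row (c p)) (by omega)
    have hp' := ih (m - S.col p') (by omega) p' rfl hr'
    have hpp : p' = p := h0 p' p hr' hp (by omega)
    rw [hpp] at hc'
    omega

/-- A permutation of the letters below the first row, extended. -/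
def ext' (y : Equiv.Perm S.Low) : Equiv.Perm α := Equiv.Perm.ofSubtype y

theorem ext'_top (y : Equiv.Perm S.Low) {p : α} (h : S.row p = 0) : S.ext' y p = p :=
  Equiv.Perm.ofSubtype_apply_of_not_mem y (not_not.2 h)

theorem ext'_low (y : Equiv.Perm S.Low) (p : S.Low) : S.ext' y p.1 = (y p).1 :=
  Equiv.Perm.ofSubtype_apply_coe y p

theorem exists_ext' (x : Equiv.Perm α) (hx : ∀ p, S.row p = 0 → x p = p) :
    ∃ y, S.ext' y = x := by
  have hiff : ∀ p, ¬ S.row (x p) = 0 ↔ ¬ S.row p = 0 := fun p => not_congr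
    ⟨fun h => by
      have := x.injective (hx _ h)
      rwa [this] at h, fun h => by rwa [hx p h]⟩
  exact ⟨x.subtypePerm hiff, Equiv.Perm.ofSubtype_subtypePerm hiff fun p hp h => hp (hx p h)⟩

theorem ext'_injective : Function.Injective S.ext' := Equiv.Perm.ofSubtype_injective

/-- Products with the shift are forced exactly when the lower part is. -/
theorem shift_mul_mem_iff (y : Equiv.Perm S.Low) :
    S.InRC (S.shift * S.ext' y) ↔ S.low.InRC y := by
  constructor
  · rintro ⟨r, c, hr, hc, h⟩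
    have hrow : ∀ p, S.row (c p) = S.row (S.shiftFun (S.ext' y p)) := fun p => by
      rw [← hr (c p)]
      exact congrArg S.row (DFunLike.congr_fun h p).symm
    have htop : ∀ p, S.row p = 0 → c p = S.shiftFun p := fun p hp => S.ext _ _
      (by rw [hrow, S.ext'_top y hp]) (by rw [hc, S.shiftFun_col])
    obtain ⟨d, hd⟩ := S.exists_ext' (S.shift⁻¹ * c) fun p hp => by
      rw [Equiv.Perm.mul_apply, htop p hp]
      exact S.shift.symm_apply_apply p
    have hdc : ∀ p, S.shiftFun (S.ext' d p) = c p := fun p => by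
      rw [hd, Equiv.Perm.mul_apply]
      exact S.shift.apply_symm_apply (c p)
    have hdcol : S.low.InC d := fun p => by
      show S.col (d p).1 = S.col p.1
      rw [← S.ext'_low d p, ← S.shiftFun_col, hdc, hc]
    refine ⟨y * d⁻¹, d, fun p => ?_, hdcol, by group⟩
    obtain ⟨q, rfl⟩ := d.surjective p
    have h1 := hrow q.1
    rw [S.ext'_low, ← hdc, S.ext'_low, S.shiftFun_low (d q).2, S.shiftFun_low (y q).2] at h1
    show S.row ((y * d⁻¹) (d q)).1 - 1 = S.row (d q).1 - 1
    simp [h1]
  · rintro ⟨r, c, hr, hc, rfl⟩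
    refine ⟨S.shift * S.ext' r * S.shift⁻¹, S.shift * S.ext' c, fun p => ?_, fun p => ?_, ?_⟩
    · obtain ⟨q, rfl⟩ := S.shift.surjective p
      show S.row (S.shift (S.ext' r (S.shift⁻¹ (S.shift q)))) = S.row (S.shift q)
      rw [show S.shift⁻¹ (S.shift q) = q from S.shift.symm_apply_apply q]
      by_cases hq : S.row q = 0
      · rw [S.ext'_top r hq]
      · have h' : S.row (r ⟨q, hq⟩).1 - 1 = S.row q - 1 := hr ⟨q, hq⟩
        show S.row (S.shiftFun (S.ext' r q)) = S.row (S.shiftFun q)
        rw [S.ext'_low r ⟨q, hq⟩, S.shiftFun_low (r ⟨q, hq⟩).2, S.shiftFun_low hq, h']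
    · show S.col (S.shiftFun (S.ext' c p)) = S.col p
      rw [S.shiftFun_col]
      by_cases hp : S.row p = 0
      · rw [S.ext'_top c hp]
      · rw [S.ext'_low c ⟨p, hp⟩]
        exact hc ⟨p, hp⟩
    · show S.shift * Equiv.Perm.ofSubtype (r * c) = _
      rw [map_mul]
      show _ = S.shift * Equiv.Perm.ofSubtype r * S.shift⁻¹ * (S.shift * Equiv.Perm.ofSubtype c)
      group

theorem inv_shift_mul_mem_iff (y : Equiv.Perm S.Low) :
    S.InRC (S.shift * S.ext' y)⁻¹ ↔ S.low.InRC y⁻¹ := by
  rw [show (S.shift * S.ext' y)⁻¹ = S.ext' y⁻¹ * S.shift⁻¹ by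
    rw [mul_inv_rev]; congr 1]
  constructor
  · rintro ⟨r, c, hr, hc, h⟩
    have hrow : ∀ p, S.row (c p) = S.row (S.ext' y⁻¹ (S.shift⁻¹ p)) := fun p => by
      rw [← hr (c p)]
      exact congrArg S.row (DFunLike.congr_fun h p).symm
    have htop : ∀ p, S.row p = 0 → c (S.shift p) = p := fun p hp => S.ext _ _
      (by
        rw [hrow, show S.shift⁻¹ (S.shift p) = p from S.shift.symm_apply_apply p,
          S.ext'_top _ hp])
      (by rw [hc]; exact S.shiftFun_col p)
    obtain ⟨d, hd⟩ := S.exists_ext' (c * S.shift) htop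
    have hdc : ∀ p, S.ext' d p = c (S.shift p) := fun p => by rw [hd]; rfl
    have hdcol : S.low.InC d := fun p => by
      show S.col (d p).1 = S.col p.1
      rw [← S.ext'_low d p, hdc, hc]
      exact S.shiftFun_col p.1
    refine ⟨y⁻¹ * d⁻¹, d, fun p => ?_, hdcol, by group⟩
    obtain ⟨q, rfl⟩ := d.surjective p
    have h1 := hrow (S.shift q.1)
    rw [← hdc, show S.shift⁻¹ (S.shift q.1) = q.1 from S.shift.symm_apply_apply q.1,
      S.ext'_low, S.ext'_low] at h1
    show S.row ((y⁻¹ * d⁻¹) (d q)).1 - 1 = S.row (d q).1 - 1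
    simp [h1]
  · rintro ⟨r, c, hr, hc, h⟩
    refine ⟨S.ext' r, S.ext' c * S.shift⁻¹, fun p => ?_, fun p => ?_, ?_⟩
    · by_cases hp : S.row p = 0
      · rw [S.ext'_top r hp]
      · have h' : S.row (r ⟨p, hp⟩).1 - 1 = S.row p - 1 := hr ⟨p, hp⟩
        have h1 := (r ⟨p, hp⟩).2
        rw [S.ext'_low r ⟨p, hp⟩]
        omega
    · obtain ⟨q, rfl⟩ := S.shift.surjective p
      rw [Equiv.Perm.mul_apply, show S.shift⁻¹ (S.shift q) = q from S.shift.symm_apply_apply q]
      refine Eq.trans ?_ (S.shiftFun_col q).symm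
      by_cases hp : S.row q = 0
      · rw [S.ext'_top c hp]
      · rw [S.ext'_low c ⟨q, hp⟩]
        exact hc ⟨q, hp⟩
    · rw [h, ← mul_assoc]
      congr 1
      exact map_mul _ _ _

/-- **The step.** Sums of functions invariant under the first row reduce to the staircase below. -/
theorem sum_both_step {M : Type} [AddCommMonoid M] (h2 : ∀ a : M, a + a = 0)
    (F : Equiv.Perm α → M)
    (hF : ∀ x r, S.InR r → (∀ p, ¬ S.row p = 0 → r p = p) → F (x * r) = F x) :
    ∑ x ∈ S.both, F x = ∑ y ∈ S.low.both, F (S.shift * S.ext' y) := by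
  let G : Finset (Equiv.Perm α) := S.both.filter fun x => ∀ p, S.row p = 0 → x p = S.shiftFun p
  have key : ∀ x ∈ S.both \ G, ∃ r c p p', S.InR r ∧ S.InC c ∧ x = c⁻¹ * r⁻¹ ∧ p ≠ p' ∧
      S.row p = 0 ∧ S.row p' = 0 ∧ S.row (c⁻¹ p) = S.row (c⁻¹ p') ∧
        c⁻¹ * (r * Equiv.swap p p')⁻¹ ∈ S.both := by
    intro x hx
    obtain ⟨hxb, hxG⟩ := Finset.mem_sdiff.1 hx
    obtain ⟨r, c, hr, hc, h⟩ := (mem_both.1 hxb).2
    obtain rfl : x = c⁻¹ * r⁻¹ := by rw [← mul_inv_rev, ← h, inv_inv]
    by_cases hinj : ∀ p p', S.row p = 0 → S.row p' = 0 → S.row (c⁻¹ p) = S.row (c⁻¹ p') → p = p'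
    · refine absurd (Finset.mem_filter.2 ⟨hxb, fun p hp => ?_⟩) hxG
      have hf := S.top_forced c⁻¹ (hc.inv S) hinj
      obtain ⟨r₂, c₂, hr₂, hc₂, h₂⟩ := (mem_both.1 hxb).1
      have hV : ∀ q, S.row (c₂ q) = S.row (c⁻¹ (r⁻¹ q)) := fun q => by
        rw [← hr₂ (c₂ q)]
        exact congrArg S.row (DFunLike.congr_fun h₂ q).symm
      have hr0 : ∀ q, S.row q = 0 → S.row (r⁻¹ q) = 0 := fun q hq => (hr.inv S q).trans hq
      have hf2 := S.top_forced c₂ hc₂ fun q q' hq hq' he => r⁻¹.injective
        (hinj _ _ (hr0 q hq) (hr0 q' hq') (by rw [← hV, ← hV, he]))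
      have e : r⁻¹ p = p := by
        refine S.ext _ _ ((hr0 p hp).trans hp.symm) ?_
        have e1 := hV p
        rw [hf2 p hp, hf _ (hr0 p hp)] at e1
        have := S.lt p
        have := S.lt (r⁻¹ p)
        omega
      rw [Equiv.Perm.mul_apply, e]
      exact S.ext _ _ ((hf p hp).trans (S.shiftFun_top hp).symm)
        ((hc.inv S p).trans (S.shiftFun_col p).symm)
    · simp only [not_forall] at hinj
      obtain ⟨p, p', hp, hp', he, hne⟩ := hinj
      exact ⟨r, c, p, p', hr, hc, rfl, hne, hp, hp', he,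
        swap_mem_both hr hc hxb (hp.trans hp'.symm) he⟩
  have hzero : ∑ x ∈ S.both \ G, F x = 0 := by
    choose r c p p' hr hc hx hne hp hp' he hy using key
    let f : ∀ x ∈ S.both \ G, Equiv.Perm α := fun x hx =>
      (c x hx)⁻¹ * (r x hx * Equiv.swap (p x hx) (p' x hx))⁻¹
    -- the pair depends on the column part alone
    let pick : Equiv.Perm α → α × α := fun d =>
      if h : ∃ q : α × α, q.1 ≠ q.2 ∧ S.row q.1 = 0 ∧ S.row q.2 = 0 ∧
        S.row (d⁻¹ q.1) = S.row (d⁻¹ q.2) then h.choose
      else ((S.exists_cell 0 0 (by omega)).choose, (S.exists_cell 0 0 (by omega)).choose)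
    have hpick : ∀ d (h : ∃ q : α × α, q.1 ≠ q.2 ∧ S.row q.1 = 0 ∧ S.row q.2 = 0 ∧
        S.row (d⁻¹ q.1) = S.row (d⁻¹ q.2)),
        (pick d).1 ≠ (pick d).2 ∧ S.row (pick d).1 = 0 ∧ S.row (pick d).2 = 0 ∧
          S.row (d⁻¹ (pick d).1) = S.row (d⁻¹ (pick d).2) := fun d h => by
      simp only [pick, dif_pos h]
      exact h.choose_spec
    let g : ∀ x ∈ S.both \ G, Equiv.Perm α := fun x hx =>
      (c x hx)⁻¹ * (r x hx * Equiv.swap (pick (c x hx)).1 (pick (c x hx)).2)⁻¹
    have hP : ∀ x (hxm : x ∈ S.both \ G), _ := fun x hxm =>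
      hpick (c x hxm) ⟨(p x hxm, p' x hxm), hne x hxm, hp x hxm, hp' x hxm, he x hxm⟩
    have hg : ∀ x (hxm : x ∈ S.both \ G), g x hxm ∈ S.both \ G := fun x hxm => by
      obtain ⟨h1, h3, h4, h5⟩ := hP x hxm
      refine Finset.mem_sdiff.2 ⟨swap_mem_both (hr x hxm) (hc x hxm)
        (hx x hxm ▸ (Finset.mem_sdiff.1 hxm).1) (h3.trans h4.symm) h5, fun hG => h1 ?_⟩
      have hG' := (Finset.mem_filter.1 hG).2
      have ha : S.InR (r x hxm * Equiv.swap (pick (c x hxm)).1 (pick (c x hxm)).2) :=
        (hr x hxm).mul S (swap_keeps (V := S.row) (h3.trans h4.symm))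
      have hq : ∀ z, g x hxm ((r x hxm * Equiv.swap (pick (c x hxm)).1 (pick (c x hxm)).2) z)
          = (c x hxm)⁻¹ z := fun z =>
        congrArg ⇑((c x hxm)⁻¹ : Equiv.Perm α) (Equiv.symm_apply_apply
          (r x hxm * Equiv.swap (pick (c x hxm)).1 (pick (c x hxm)).2) z)
      have hb1 := (ha (pick (c x hxm)).1).trans h3
      have hb2 := (ha (pick (c x hxm)).2).trans h4
      have q1 := congrArg S.row (hG' _ hb1)
      have q2 := congrArg S.row (hG' _ hb2)
      rw [hq, S.shiftFun_top hb1] at q1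
      rw [hq, S.shiftFun_top hb2] at q2
      have := S.lt ((r x hxm * Equiv.swap (pick (c x hxm)).1 (pick (c x hxm)).2)
        (pick (c x hxm)).1)
      have := S.lt ((r x hxm * Equiv.swap (pick (c x hxm)).1 (pick (c x hxm)).2)
        (pick (c x hxm)).2)
      exact (r x hxm * Equiv.swap (pick (c x hxm)).1 (pick (c x hxm)).2).injective
        (S.ext _ _ (hb1.trans hb2.symm) (by omega))
    refine Finset.sum_involution g (fun x hxm => ?_) (fun x hxm _ hgx => ?_) hg
      (fun x hxm => ?_)
    · obtain ⟨h1, h3, h4, -⟩ := hP x hxm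
      have hs : (r x hxm * Equiv.swap (pick (c x hxm)).1 (pick (c x hxm)).2)⁻¹
          = (r x hxm)⁻¹ * Equiv.swap (r x hxm (pick (c x hxm)).1)
              (r x hxm (pick (c x hxm)).2) := by
        rw [mul_inv_rev, Equiv.swap_inv]
        rw [Equiv.swap_apply_apply]
        group
      show F x + F ((c x hxm)⁻¹ * _) = 0
      rw [hs, ← mul_assoc, ← hx x hxm, hF x _
        (swap_keeps (V := S.row) ((hr x hxm _).trans ((h3.trans h4.symm).trans (hr x hxm _).symm)))
        fun q hq => Equiv.swap_apply_of_ne_of_ne (fun e => hq (by rw [e, hr x hxm, h3]))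
          (fun e => hq (by rw [e, hr x hxm, h4]))]
      exact h2 _
    · have e2 := inv_injective (mul_left_cancel (hgx.trans (hx x hxm)))
      exact (hP x hxm).1 (Equiv.swap_eq_one_iff.1 (mul_eq_left.1 e2))
    · obtain ⟨h1, h3, h4, -⟩ := hP x hxm
      have hm := hg x hxm
      obtain ⟨e1, e2⟩ := S.mul_unique (hr _ hm)
        ((hr x hxm).mul S (swap_keeps (V := S.row) (h3.trans h4.symm))) (hc _ hm) (hc x hxm) (by
          have := congrArg (fun z => z⁻¹) (hx _ hm).symm
          simp only [mul_inv_rev, inv_inv] at this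
          exact this.trans (by simp [g]))
      show g _ hm = x
      simp only [g] at e1 e2 ⊢
      simp only [e2, e1]
      rw [mul_assoc, Equiv.swap_mul_self, mul_one]
      exact (hx x hxm).symm
  rw [← Finset.sum_sdiff (Finset.filter_subset _ S.both : G ⊆ S.both), hzero, zero_add]
  refine (Finset.sum_bij' (fun y _ => S.shift * S.ext' y)
    (fun x hx => (S.exists_ext' (S.shift⁻¹ * x) fun p hp => by
      rw [Equiv.Perm.mul_apply, (Finset.mem_filter.1 hx).2 p hp]
      exact S.shift.symm_apply_apply p).choose)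
    (fun y hy => ?_) (fun x hx => ?_) (fun y hy => ?_) (fun x hx => ?_) fun y _ => rfl).symm
  · refine Finset.mem_filter.2 ⟨mem_both.2 ⟨(S.shift_mul_mem_iff y).2 (mem_both.1 hy).1,
      (S.inv_shift_mul_mem_iff y).2 (mem_both.1 hy).2⟩, fun p hp => ?_⟩
    rw [Equiv.Perm.mul_apply, S.ext'_top y hp]
    rfl
  · generalize_proofs h
    have e : S.shift * S.ext' h.choose = x := by rw [h.choose_spec, mul_inv_cancel_left]
    have hb := mem_both.1 (Finset.mem_filter.1 hx).1
    refine mem_both.2 ⟨(S.shift_mul_mem_iff _).1 ?_, (S.inv_shift_mul_mem_iff _).1 ?_⟩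
    · rw [e]; exact hb.1
    · rw [e]; exact hb.2
  · generalize_proofs h
    exact S.ext'_injective (h.choose_spec.trans (inv_mul_cancel_left _ _))
  · generalize_proofs h
    show S.shift * S.ext' h.choose = x
    rw [h.choose_spec, mul_inv_cancel_left]

end Stair

end

end P197
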