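import Vale.Agent.P197.Avail

/-!
# P197: a symmetric combination for three columns

Let three columns have lengths `L, v, v` with `v ≤ L`. Among the colourings of `L + 2 v` ordered
letters by the three columns take those whose letters outside the first column read second, third,
second, third and so on. An odd number of them fills the three columns with given rows, provided one
colouring at all does.
-/

namespace P197

open scoped Classical

noncomputable section

/-- Squaring changes nothing modulo two. -/
theorem pow_pos_two (a : ZMod 2) {k : ℕ} (hk : 0 < k) : a ^ k = a := by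
  have h : a = 0 ∨ a = 1 := by revert a; decide
  rcases h with rfl | rfl
  · exact zero_pow hk.ne'
  · exact one_pow k

section Cycles

variable {ι : Type}

/-- The edge chosen at a vertex, weighted. -/
def edge (x : ι → Fin 3 → ι → Fin 3 → ZMod 2) (s : ι → Fin 3) (i : ι) (o : Option ι) : ZMod 2 :=
  o.elim 1 fun j => x i (s i) j (s j)

/-- Every chosen vertex is chosen by another one, which it does not choose. -/
def Cyc (f : ι → Option ι) : Prop :=
  ∀ v, (f v).isSome → ∃ u, f u = some v ∧ f v ≠ some u

/-- The choices reversed. -/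
def rev' (f : ι → Option ι) (v : ι) : Option ι :=
  if h : ∃ u, f u = some v then some h.choose else none

variable [Fintype ι]

theorem Cyc.structure' {f : ι → Option ι} (hf : Cyc f) :
    (∀ u u' v, f u = some v → f u' = some v → u = u') ∧
      ∀ u v, f u = some v → (f v).isSome := by
  let A := {v : ι // (f v).isSome}
  let pre : A → A := fun v => ⟨(hf v.1 v.2).choose, by rw [(hf v.1 v.2).choose_spec.1]; rfl⟩
  have hpre : ∀ v : A, f (pre v).1 = some v.1 := fun v => (hf v.1 v.2).choose_spec.1
  have hsurj : Function.Surjective pre := Finite.injective_iff_surjective.1 fun v v' h =>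
    Subtype.ext (Option.some.inj ((hpre v).symm.trans ((congrArg (fun a : A => f a.1) h).trans
      (hpre v'))))
  have key : ∀ u v, f u = some v → ∃ h : (f v).isSome, (pre ⟨v, h⟩).1 = u := fun u v h => by
    obtain ⟨v', hv'⟩ := hsurj ⟨u, by rw [h]; rfl⟩
    have e : (pre v').1 = u := congrArg Subtype.val hv'
    have := hpre v'
    rw [e, h] at this
    obtain rfl := Option.some.inj this
    exact ⟨v'.2, e⟩
  exact ⟨fun u u' v h h' => ((key u v h).choose_spec.symm.trans (key u' v h').choose_spec),
    fun u v h => (key u v h).choose⟩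

theorem Cyc.rev'_eq_some_iff {f : ι → Option ι} (hf : Cyc f) (u v : ι) :
    rev' f v = some u ↔ f u = some v := by
  unfold rev'
  constructor
  · intro h
    split at h
    · rename_i hex
      rw [← Option.some.inj h]
      exact hex.choose_spec
    · simp at h
  · intro h
    rw [dif_pos ⟨u, h⟩]
    exact congrArg some (hf.structure'.1 _ _ _ (Exists.choose_spec (⟨u, h⟩ : ∃ u, f u = some v)) h)

theorem Cyc.rev' {f : ι → Option ι} (hf : Cyc f) : Cyc (rev' f) := fun v hv => by
  obtain ⟨u, hu⟩ := Option.isSome_iff_exists.1 hv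
  rw [hf.rev'_eq_some_iff] at hu
  obtain ⟨w, hw⟩ := Option.isSome_iff_exists.1 (hf.structure'.2 u v hu)
  refine ⟨w, (hf.rev'_eq_some_iff v w).2 hw, fun h => ?_⟩
  rw [hf.rev'_eq_some_iff] at h
  obtain ⟨u', hu', hne⟩ := hf v (by rw [hw]; rfl)
  obtain rfl := hf.structure'.1 _ _ _ hu' h
  exact hne hw

/-- A triangle meets every chord an even number of times: only unions of cycles count. -/
theorem sum_prod_one_add (x : ι → Fin 3 → ι → Fin 3 → ZMod 2)
    (hsymm : ∀ i a j b, x i a j b = x j b i a) (hdiag : ∀ i a b, x i a i b = 0)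
    (hzero : ∀ i j b, ∑ a, x i a j b = 0) :
    ∑ s : ι → Fin 3, ∏ i, (1 + ∑ j, x i (s i) j (s j)) = 1 := by
  have hexp : ∀ s : ι → Fin 3, ∏ i, (1 + ∑ j, x i (s i) j (s j))
      = ∑ f : ι → Option ι, ∏ i, edge x s i (f i) := fun s => by
    rw [← Fintype.prod_sum]
    exact Finset.prod_congr rfl fun i _ => by rw [Fintype.sum_option]; rfl
  rw [Finset.sum_congr rfl fun s _ => hexp s, Finset.sum_comm]
  -- a vertex with a single neighbour kills the term
  have hleaf : ∀ (f : ι → Option ι) (v w : ι), v ≠ w →
      (∀ j, f v = some j → j = w) → (∀ i, f i = some v → i = w) →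
      (∃ i, f i = some v ∨ (i = v ∧ (f i).isSome)) →
      ∑ s : ι → Fin 3, ∏ i, edge x s i (f i) = 0 := by
    intro f v w hvw hout hin hex
    let I : Finset ι := Finset.univ.filter fun i => f i = some v ∨ (i = v ∧ (f i).isSome)
    have hI : ∀ s : ι → Fin 3, ∏ i ∈ I, edge x s i (f i) = x v (s v) w (s w) := fun s => by
      rw [Finset.prod_congr rfl fun i hi => show edge x s i (f i) = x v (s v) w (s w) from ?_,
        Finset.prod_const]
      · obtain ⟨i, hi⟩ := hex
        exact pow_pos_two _ (Finset.card_pos.2 ⟨i, Finset.mem_filter.2 ⟨Finset.mem_univ _, hi⟩⟩)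
      · rcases (Finset.mem_filter.1 hi).2 with h | ⟨rfl, h⟩
        · rw [h, hin i h]; exact hsymm _ _ _ _
        · obtain ⟨j, hj⟩ := Option.isSome_iff_exists.1 h
          rw [hj, hout j hj]; rfl
    rw [← (Equiv.funSplitAt v (Fin 3)).symm.sum_comp, Fintype.sum_prod_type_right]
    refine Finset.sum_eq_zero fun s' _ => ?_
    let R : ZMod 2 := ∏ i ∈ Finset.univ \ I,
      edge x ((Equiv.funSplitAt v (Fin 3)).symm (0, s')) i (f i)
    have key : ∀ a, ∏ i, edge x ((Equiv.funSplitAt v (Fin 3)).symm (a, s')) i (f i)
        = R * x v a w (s' ⟨w, hvw.symm⟩) := fun a => by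
      have hs : ∀ j, j ≠ v → (Equiv.funSplitAt v (Fin 3)).symm (a, s') j
          = (Equiv.funSplitAt v (Fin 3)).symm (0, s') j := fun j hj => by
        simp [hj]
      rw [← Finset.prod_sdiff (Finset.subset_univ I), hI]
      congr 1
      · refine Finset.prod_congr rfl fun i hi => ?_
        have hi' : ¬(f i = some v ∨ (i = v ∧ (f i).isSome)) := fun h =>
          (Finset.mem_sdiff.1 hi).2 (Finset.mem_filter.2 ⟨Finset.mem_univ _, h⟩)
        rcases hfi : f i with _ | j
        · rfl
        · show x i _ j _ = x i _ j _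
          rw [hs i fun e => hi' (Or.inr ⟨e, by rw [hfi]; rfl⟩),
            hs j fun e => hi' (Or.inl (e ▸ hfi))]
      · simp [hvw.symm]
    simp only [key]
    rw [← Finset.mul_sum, hzero, mul_zero]
  let C : Finset (ι → Option ι) := Finset.univ.filter fun f => Cyc f ∧ f ≠ fun _ => none
  have hC : ∀ f : ι → Option ι, f ∉ C → f ≠ (fun _ => none) →
      ∑ s : ι → Fin 3, ∏ i, edge x s i (f i) = 0 := by
    intro f hf hne
    have hn : ¬ Cyc f := fun h => hf (Finset.mem_filter.2 ⟨Finset.mem_univ _, h, hne⟩)
    simp only [Cyc, not_forall, not_exists, not_and, not_not] at hn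
    obtain ⟨v, hv, hno⟩ := hn
    obtain ⟨w, hw⟩ := Option.isSome_iff_exists.1 hv
    by_cases hvw : v = w
    · subst hvw
      refine Finset.sum_eq_zero fun s _ => Finset.prod_eq_zero (Finset.mem_univ v) ?_
      rw [hw]
      exact hdiag _ _ _
    · refine hleaf f v w hvw (fun j hj => Option.some.inj (hj.symm.trans hw)) (fun i hi => ?_)
        ⟨v, Or.inr ⟨rfl, hv⟩⟩
      exact Option.some.inj ((hno i hi).symm.trans hw)
  have hsum : ∑ f ∈ C, ∑ s : ι → Fin 3, ∏ i, edge x s i (f i) = 0 := by
    refine Finset.sum_involution (fun f _ => rev' f) (fun f hf => ?_) (fun f hf _ e => ?_)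
      (fun f hf => ?_) fun f hf => ?_
    · obtain ⟨hc, -⟩ := (Finset.mem_filter.1 hf).2
      let σ : ι → ι := fun i => (f i).getD i
      have hσ : Function.Injective σ := fun i k h => by
        simp only [σ] at h
        rcases hi : f i with _ | a <;> rcases hk : f k with _ | b <;> rw [hi, hk] at h <;>
          simp at h
        · exact h
        · have := hc.structure'.2 k b hk; rw [← h, hi] at this; simp at this
        · have := hc.structure'.2 i a hi; rw [h, hk] at this; simp at this
        · exact hc.structure'.1 i k a hi (h ▸ hk)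
      let e := Equiv.ofBijective σ ⟨hσ, Finite.injective_iff_surjective.1 hσ⟩
      have hEq : ∀ s, ∏ i, edge x s i (rev' f i) = ∏ i, edge x s i (f i) := fun s => by
        rw [← e.prod_comp]
        refine Finset.prod_congr rfl fun k _ => ?_
        show edge x s (σ k) (rev' f (σ k)) = _
        rcases hk : f k with _ | j
        · have hno : rev' f k = none := by
            by_contra h
            obtain ⟨u, hu⟩ := Option.ne_none_iff_exists'.1 h
            have := hc.structure'.2 u k ((hc.rev'_eq_some_iff u k).1 hu)
            rw [hk] at this; simp at this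
          simp [σ, hk, hno]
        · have : rev' f j = some k := (hc.rev'_eq_some_iff k j).2 hk
          simp only [σ, hk, Option.getD_some, this]
          exact hsymm _ _ _ _
      simp only [hEq]
      exact CharTwo.add_self_eq_zero _
    · obtain ⟨hc, hne⟩ := (Finset.mem_filter.1 hf).2
      obtain ⟨v, hv⟩ : ∃ v, f v ≠ none := by
        by_contra h
        simp only [not_exists, not_not] at h
        exact hne (funext h)
      obtain ⟨u, hu, hnu⟩ := hc v (Option.ne_none_iff_isSome.1 hv)
      exact hnu (by rw [← congrFun e v]; exact (hc.rev'_eq_some_iff u v).2 hu)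
    · obtain ⟨hc, hne⟩ := (Finset.mem_filter.1 hf).2
      refine Finset.mem_filter.2 ⟨Finset.mem_univ _, hc.rev', fun h => hne (funext fun v => ?_)⟩
      by_contra hv
      obtain ⟨w, hw⟩ := Option.ne_none_iff_exists'.1 hv
      have := (hc.rev'_eq_some_iff v w).2 hw
      rw [h] at this
      simp at this
    · obtain ⟨hc, -⟩ := (Finset.mem_filter.1 hf).2
      funext v
      refine Option.ext fun u => ?_
      rw [hc.rev'.rev'_eq_some_iff, hc.rev'_eq_some_iff]
  have h0 : (fun _ => none : ι → Option ι) ∉ C := fun h => (Finset.mem_filter.1 h).2.2 rfl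
  rw [← Finset.sum_subset (Finset.subset_univ (insert (fun _ => none) C)) fun f _ hf =>
    hC f (fun h => hf (Finset.mem_insert_of_mem h)) fun h => hf (h ▸ Finset.mem_insert_self _ _),
    Finset.sum_insert h0, hsum, add_zero]
  simp only [edge, Option.elim_none, Finset.prod_const_one, Finset.sum_const, Finset.card_univ,
    Fintype.card_fun, Fintype.card_fin, nsmul_eq_mul, mul_one, Nat.cast_pow]
  exact (congrArg (· ^ Fintype.card ι) (by decide : ((3 : ℕ) : ZMod 2) = 1)).trans (one_pow _)

end Cycles

/-- The cells of three columns. -/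
def piece (L v a b c : ℕ) : Finset (ℕ × ℕ) :=
  Finset.range L ×ˢ {a} ∪ (Finset.range v ×ˢ {b} ∪ Finset.range v ×ˢ {c})

theorem mem_piece {L v a b c : ℕ} {i j : ℕ} :
    (i, j) ∈ piece L v a b c ↔ (i < L ∧ j = a) ∨ (i < v ∧ j = b) ∨ (i < v ∧ j = c) := by
  simp [piece, eq_comm]

variable {β : Type} [Fintype β]

/-- The colouring reading second, third, second, third off the chosen first column. -/
def alternate (a b c : ℕ) (key : β → ℕ) (Z : Finset β) (p : β) : ℕ :=
  if p ∈ Z then a
  else if Even ((Finset.univ \ Z).filter fun q => key q < key p).card then b else c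

/-- One or nothing, modulo two, for `key p < key q`. -/
def lt' (key : β → ℕ) (p q : β) : ZMod 2 := if key p < key q then 1 else 0

theorem even_iff_cast (k : ℕ) : Even k ↔ (k : ZMod 2) = 0 := by
  rw [ZMod.natCast_eq_zero_iff_even]

theorem triangle (g : Fin 3 → ZMod 2) : ∑ a : Fin 3, ∑ k : Fin 3, (if k = a then 0 else g k) = 0 := by
  revert g; decide

theorem own (g : Fin 3 → Fin 3 → ZMod 2) (h0 : ∀ k, g k k = 0)
    (h1 : ∀ k l, k ≠ l → g k l + g l k = 1) (a : Fin 3) :
    ∑ k : Fin 3, ∑ l : Fin 3, (if k = a ∨ l = a then 0 else g l k) = 1 := by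
  fin_cases a <;> simp [Fin.sum_univ_three, h0] <;> exact h1 _ _ (by decide)

/-- **The symmetric combination.** -/
theorem triple_parity {L v a b c : ℕ} (hv : v ≤ L) (hab : a ≠ b) (hac : a ≠ c) (hbc : b ≠ c)
    {key : β → ℕ} (hkey : Function.Injective key) (hcard : Fintype.card β = L + 2 * v)
    (W : β → ℕ) :
    ∑ Z : Finset β, (if Fills (piece L v a b c) W (alternate a b c key Z) then 1 else 0 : ZMod 2)
      = if ∃ T, Fills (piece L v a b c) W T then 1 else 0 := by
  split_ifs with hex
  swap
  · exact Finset.sum_eq_zero fun Z _ => if_neg fun h => hex ⟨_, h⟩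
  obtain ⟨T₀, h₁, h₂⟩ := hex
  have hpc : (piece L v a b c).card = L + 2 * v := by
    rw [piece, Finset.card_union_of_disjoint, Finset.card_union_of_disjoint,
      Finset.card_product, Finset.card_product, Finset.card_product] <;>
      simp [Finset.disjoint_left, hab.symm, hac.symm, hbc.symm] <;> omega
  let φ : β → (piece L v a b c) := fun p => ⟨(W p, T₀ p), h₂ p⟩
  have hφ : Function.Bijective φ := (Fintype.bijective_iff_injective_and_card φ).2
    ⟨fun p q h => h₁ (congrArg Subtype.val h), by simp [hcard, hpc]⟩
  have hcell : ∀ i j, (i, j) ∈ piece L v a b c → ∃ p, W p = i ∧ T₀ p = j := fun i j h => by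
    obtain ⟨p, hp⟩ := hφ.2 ⟨_, h⟩
    exact ⟨p, congrArg (fun z => z.1.1) hp, congrArg (fun z => z.1.2) hp⟩
  let col : Fin 3 → ℕ := ![a, b, c]
  have hcol : Function.Injective col := fun k l h => by
    fin_cases k <;> fin_cases l <;> simp_all [col]
  have hlev : ∀ (i : Fin v) (k : Fin 3), (i.1, col k) ∈ piece L v a b c := fun i k => by
    have := i.2
    fin_cases k <;> simp [col, mem_piece] <;> omega
  choose τ hτW hτT using fun (i : Fin v) (k : Fin 3) => hcell _ _ (hlev i k)
  have hτinj : ∀ i j k l, τ i k = τ j l → i = j ∧ k = l := fun i j k l h =>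
    ⟨Fin.ext ((hτW i k).symm.trans ((congrArg W h).trans (hτW j l))),
      hcol ((hτT i k).symm.trans ((congrArg T₀ h).trans (hτT j l)))⟩
  have hsmall : ∀ p (h : W p < v), ∃ k, τ ⟨W p, h⟩ k = p := fun p h => by
    rcases mem_piece.1 (h₂ p) with ⟨-, e⟩ | ⟨-, e⟩ | ⟨-, e⟩
    · exact ⟨0, h₁ (Prod.ext (hτW _ _) ((hτT _ _).trans (show col 0 = _ from e.symm)))⟩
    · exact ⟨1, h₁ (Prod.ext (hτW _ _) ((hτT _ _).trans (show col 1 = _ from e.symm)))⟩
    · exact ⟨2, h₁ (Prod.ext (hτW _ _) ((hτT _ _).trans (show col 2 = _ from e.symm)))⟩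
  have hbig : ∀ p, v ≤ W p → T₀ p = a ∧ W p < L := fun p h => by
    rcases mem_piece.1 (h₂ p) with e | ⟨hW, e⟩ | ⟨hW, e⟩
    · exact ⟨e.2, e.1⟩
    · omega
    · omega
  let Zs : (Fin v → Fin 3) → Finset β := fun s =>
    Finset.univ.filter fun p => v ≤ W p ∨ ∃ i, τ i (s i) = p
  have hmem : ∀ s i k, τ i k ∈ Zs s ↔ k = s i := fun s i k => by
    have hi := i.2
    simp only [Zs, Finset.mem_filter, Finset.mem_univ, true_and, hτW]
    constructor
    · rintro (h | ⟨j, hj⟩)
      · omega
      · obtain ⟨rfl, rfl⟩ := hτinj _ _ _ _ hj; rfl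
    · rintro rfl
      exact Or.inr ⟨i, rfl⟩
  have hZinj : ∀ s s', Zs s = Zs s' → s = s' := fun s s' h => funext fun i =>
    (hmem s' i (s i)).1 (h ▸ (hmem s i (s i)).2 rfl)
  -- only these sets occur
  have hzero : ∀ Z : Finset β, Z ∉ Finset.univ.image Zs →
      (if Fills (piece L v a b c) W (alternate a b c key Z) then 1 else 0 : ZMod 2) = 0 := by
    refine fun Z hZ => if_neg fun ⟨g₁, g₂⟩ => hZ ?_
    have hψ : Function.Bijective fun p => (⟨_, g₂ p⟩ : (piece L v a b c)) :=
      (Fintype.bijective_iff_injective_and_card _).2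
        ⟨fun p q h => g₁ (congrArg Subtype.val h), by simp [hcard, hpc]⟩
    have hz : ∀ i : Fin v, ∃ k, τ i k ∈ Z := fun i => by
      obtain ⟨p, hp⟩ := hψ.2 ⟨(i.1, a), by simp [mem_piece]; omega⟩
      have hW : W p = i.1 := congrArg (fun z => z.1.1) hp
      have hT : alternate a b c key Z p = a := congrArg (fun z => z.1.2) hp
      have hpZ : p ∈ Z := by
        by_contra h
        rw [alternate, if_neg h] at hT
        split_ifs at hT <;> simp_all
      obtain ⟨k, hk⟩ := hsmall p (by omega)
      refine ⟨k, ?_⟩
      rw [show i = ⟨W p, by omega⟩ from Fin.ext hW.symm, hk]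
      exact hpZ
    choose s hs using hz
    refine Finset.mem_image.2 ⟨s, Finset.mem_univ _, Finset.ext fun p => ?_⟩
    constructor
    · intro h
      rcases (Finset.mem_filter.1 h).2 with h | ⟨i, rfl⟩
      · by_contra hp
        have h' := g₂ p
        rw [mem_piece, alternate, if_neg hp] at h'
        split_ifs at h' <;> simp_all <;> omega
      · exact hs i
    · intro hp
      refine Finset.mem_filter.2 ⟨Finset.mem_univ _, ?_⟩
      by_cases h : v ≤ W p
      · exact Or.inl h
      · refine Or.inr ⟨⟨W p, by omega⟩, g₁ (Prod.ext (hτW _ _) ?_)⟩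
        simp [alternate, hp, hs]
  rw [← Finset.sum_subset (Finset.subset_univ _) fun Z _ hZ => hzero Z hZ,
    Finset.sum_image fun s _ s' _ h => hZinj s s' h]
  -- crossing numbers
  let x : Fin v → Fin 3 → Fin v → Fin 3 → ZMod 2 := fun i z j y => if i = j then 0 else
    ∑ k : Fin 3, ∑ l : Fin 3, (if k = z ∨ l = y then 0 else lt' key (τ j l) (τ i k))
  have hlt : ∀ p q : β, p ≠ q → lt' key p q + lt' key q p = 1 := fun p q h => by
    have := hkey.ne h
    unfold lt'
    split_ifs <;> first | omega | decide
  have hrank : ∀ s p, (((Finset.univ \ Zs s).filter fun q => key q < key p).card : ZMod 2)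
      = ∑ j, ∑ l, if l = s j then 0 else lt' key (τ j l) p := fun s p => by
    rw [Finset.natCast_card_filter, ← Fintype.sum_prod_type']
    rw [← Finset.sum_filter_of_ne (p := fun e : Fin v × Fin 3 => e.2 ≠ s e.1) fun e _ he h =>
      he (if_pos h)]
    symm
    refine Finset.sum_nbij (fun e => τ e.1 e.2) (fun e he => ?_) (fun e _ e' _ h => ?_)
      (fun q hq => ?_) fun e he => ?_
    · exact Finset.mem_sdiff.2 ⟨Finset.mem_univ _, fun h =>
        (Finset.mem_filter.1 he).2 ((hmem s _ _).1 h)⟩
    · exact Prod.ext (hτinj _ _ _ _ h).1 (hτinj _ _ _ _ h).2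
    · have hq' := (Finset.mem_sdiff.1 (Finset.mem_coe.1 hq)).2
      have hW : W q < v := by
        by_contra h
        exact hq' (Finset.mem_filter.2 ⟨Finset.mem_univ _, Or.inl (by omega)⟩)
      obtain ⟨k, hk⟩ := hsmall q hW
      refine ⟨(⟨W q, hW⟩, k), Finset.mem_coe.2 (Finset.mem_filter.2 ⟨Finset.mem_univ _, fun h =>
        hq' ?_⟩), hk⟩
      rw [← hk]
      exact (hmem s _ _).2 h
    · rw [if_neg (Finset.mem_filter.1 he).2]
      rfl
  let R : (Fin v → Fin 3) → Fin v → ZMod 2 := fun s i => ∑ k : Fin 3, if k = s i then 0 else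
    (((Finset.univ \ Zs s).filter fun q => key q < key (τ i k)).card : ZMod 2)
  have hR : ∀ s i, R s i = 1 + ∑ j, x i (s i) j (s j) := fun s i => by
    have e : R s i = ∑ j, ∑ k, ∑ l,
        (if k = s i ∨ l = s j then 0 else lt' key (τ j l) (τ i k)) := by
      rw [Finset.sum_comm]
      refine Finset.sum_congr rfl fun k _ => ?_
      by_cases hk : k = s i
      · simp [hk]
      · simp only [hk, if_false, false_or]
        exact hrank s _
    rw [e, ← Finset.add_sum_erase _ _ (Finset.mem_univ i),
      ← Finset.add_sum_erase Finset.univ (fun j => x i (s i) j (s j)) (Finset.mem_univ i)]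
    rw [own (fun k l => lt' key (τ i k) (τ i l)) (fun k => if_neg (lt_irrefl _))
      (fun k l h => hlt _ _ fun h' => h (hτinj _ _ _ _ h').2) (s i),
      show x i (s i) i (s i) = 0 from if_pos rfl, zero_add]
    exact congrArg _ (Finset.sum_congr rfl fun j hj =>
      (if_neg (Finset.ne_of_mem_erase hj).symm).symm)
  have hstep : ∀ s, (if Fills (piece L v a b c) W (alternate a b c key (Zs s)) then 1 else 0 : ZMod 2)
      = ∏ i, R s i := fun s => by
    have h01 : ∀ i, R s i = if ∀ k l, k ≠ s i → l ≠ s i → k ≠ l →
        alternate a b c key (Zs s) (τ i k) ≠ alternate a b c key (Zs s) (τ i l) then 1 else 0 := by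
      intro i
      have hd : ∀ k, k ≠ s i → alternate a b c key (Zs s) (τ i k) =
          if (((Finset.univ \ Zs s).filter fun q => key q < key (τ i k)).card : ZMod 2) = 0
            then b else c := fun k hk => by
        rw [alternate, if_neg fun h => hk ((hmem s i k).1 h)]
        exact if_congr (even_iff_cast _) rfl rfl
      have hbc' : ∀ P Q : ZMod 2, ((if P = 0 then b else c) ≠ if Q = 0 then b else c) ↔ P + Q = 1 := by
        intro P Q
        have hP : P = 0 ∨ P = 1 := by revert P; decide
        have hQ : Q = 0 ∨ Q = 1 := by revert Q; decide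
        rcases hP with rfl | rfl <;> rcases hQ with rfl | rfl <;> simp [hbc, hbc.symm] <;> decide
      have hall : (∀ k l, k ≠ s i → l ≠ s i → k ≠ l →
          alternate a b c key (Zs s) (τ i k) ≠ alternate a b c key (Zs s) (τ i l)) ↔ R s i = 1 := by
        constructor
        · intro h
          simp only [R, Fin.sum_univ_three]
          generalize hz : s i = z at h hd ⊢
          fin_cases z
          · have := h 1 2 (by decide) (by decide) (by decide)
            rw [hd _ (by decide), hd _ (by decide), hbc'] at this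
            simpa using this
          · have := h 0 2 (by decide) (by decide) (by decide)
            rw [hd _ (by decide), hd _ (by decide), hbc'] at this
            simpa using this
          · have := h 0 1 (by decide) (by decide) (by decide)
            rw [hd _ (by decide), hd _ (by decide), hbc'] at this
            simpa using this
        · intro h k l hk hl hkl
          rw [hd k hk, hd l hl, hbc', ← h]
          have : ∀ g : Fin 3 → ZMod 2, ∀ k l z : Fin 3, k ≠ z → l ≠ z → k ≠ l →
              g k + g l = ∑ q : Fin 3, if q = z then 0 else g q := by decide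
          exact this (fun q => (((Finset.univ \ Zs s).filter fun z => key z < key (τ i q)).card : ZMod 2))
            k l (s i) hk hl hkl
      have h01' : R s i = 0 ∨ R s i = 1 := by generalize R s i = r; revert r; decide
      split_ifs with h
      · exact hall.1 h
      · exact h01'.resolve_right fun e => h (hall.2 e)
    simp only [h01]
    have hiff : Fills (piece L v a b c) W (alternate a b c key (Zs s)) ↔ ∀ i k l, k ≠ s i → l ≠ s i →
        k ≠ l → alternate a b c key (Zs s) (τ i k) ≠ alternate a b c key (Zs s) (τ i l) := by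
      refine ⟨fun h i k l hk hl hkl e => hkl ?_, fun h => ?_⟩
      · exact (hτinj _ _ _ _ (h.1 (Prod.ext ((hτW i k).trans (hτW i l).symm) e))).2
      · refine ⟨fun p q he => ?_, fun p => ?_⟩
        · have hW : W p = W q := congrArg Prod.fst he
          have hT : alternate a b c key (Zs s) p = alternate a b c key (Zs s) q := congrArg Prod.snd he
          by_cases hp : v ≤ W p
          · exact h₁ (Prod.ext hW ((hbig p hp).1.trans (hbig q (hW ▸ hp)).1.symm))
          · obtain ⟨k, hk⟩ := hsmall p (by omega)
            obtain ⟨l, hl⟩ := hsmall q (by omega)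
            have hi : (⟨W p, by omega⟩ : Fin v) = ⟨W q, by omega⟩ := Fin.ext hW
            rw [← hi] at hl
            have hne : ∀ r, r ≠ s ⟨W p, by omega⟩ →
                alternate a b c key (Zs s) (τ ⟨W p, by omega⟩ r) ≠ a := fun r hr => by
              rw [alternate, if_neg fun h' => hr ((hmem s _ r).1 h')]
              split_ifs
              · exact hab.symm
              · exact hac.symm
            have ha : alternate a b c key (Zs s) (τ ⟨W p, by omega⟩ (s ⟨W p, by omega⟩)) = a := by
              rw [alternate, if_pos ((hmem s _ _).2 rfl)]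
            replace hT : alternate a b c key (Zs s) (τ ⟨W p, by omega⟩ k)
                = alternate a b c key (Zs s) (τ ⟨W p, by omega⟩ l) := by
              rw [hk, hl]; exact hT
            by_contra hne'
            have hkl : k ≠ l := fun e => hne' (hk.symm.trans ((congrArg (τ _) e).trans hl))
            by_cases hks : k = s ⟨W p, by omega⟩
            · exact hne l (fun e => hkl (hks.trans e.symm)) (hT.symm.trans (hks ▸ ha))
            · by_cases hls : l = s ⟨W p, by omega⟩
              · exact hne k hks (hT.trans (hls ▸ ha))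
              · exact h _ k l hks hls hkl hT
        · rw [mem_piece]
          by_cases hp : v ≤ W p
          · refine Or.inl ⟨(hbig p hp).2, ?_⟩
            rw [alternate, if_pos (show p ∈ Zs s from Finset.mem_filter.2 ⟨Finset.mem_univ _, Or.inl hp⟩)]
          · unfold alternate
            split_ifs
            · exact Or.inl ⟨by omega, rfl⟩
            · exact Or.inr (Or.inl ⟨by omega, rfl⟩)
            · exact Or.inr (Or.inr ⟨by omega, rfl⟩)
    split_ifs with h
    · exact (Finset.prod_eq_one fun i _ => if_pos (hiff.1 h i)).symm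
    · obtain ⟨i, hi⟩ := not_forall.1 fun h' => h (hiff.2 h')
      exact (Finset.prod_eq_zero (Finset.mem_univ i) (if_neg hi)).symm
  simp only [hstep, hR]
  refine Eq.trans ?_ (sum_prod_one_add x (fun i z j y => ?_) (fun i z y => if_pos rfl)
    fun i j y => ?_)
  · exact Finset.sum_congr (Finset.ext fun _ => by simp) fun _ _ => rfl
  · by_cases h : i = j
    · simp [x, h]
    · simp only [x, if_neg h, if_neg (Ne.symm h)]
      have key4 : ∀ g g' : Fin 3 → Fin 3 → ZMod 2, (∀ k l, g k l + g' l k = 1) → ∀ z y : Fin 3,
          (∑ k, ∑ l, if k = z ∨ l = y then 0 else g k l)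
            = ∑ k, ∑ l, if k = y ∨ l = z then 0 else g' k l := by
        intro g g' hg z y
        have hg' : ∀ k l, g' l k = 1 + g k l := fun k l => by
          rw [← hg k l, add_comm (g k l), add_assoc, CharTwo.add_self_eq_zero, add_zero]
        fin_cases z <;> fin_cases y <;> simp [Fin.sum_univ_three, hg'] <;> ring_nf <;>
          simp [CharTwo.two_eq_zero, (by decide : (4 : ZMod 2) = 0)]
      exact key4 (fun k l => lt' key (τ j l) (τ i k)) (fun k l => lt' key (τ i l) (τ j k))
        (fun k l => hlt _ _ fun e => h (hτinj _ _ _ _ e).1.symm) z y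
  · by_cases h : i = j
    · simp [x, h]
    · simp only [x, if_neg h]
      rw [Finset.sum_congr rfl fun z _ => Finset.sum_congr rfl fun k _ => show
        (∑ l, if k = z ∨ l = y then 0 else lt' key (τ j l) (τ i k))
          = if k = z then 0 else ∑ l, if l = y then 0 else lt' key (τ j l) (τ i k) from ?_]
      · exact triangle _
      · by_cases hk : k = z <;> simp [hk]

end

end P197
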